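import Vale.Agent.P330.H972.XNumC
import Vale.Agent.P330.FM.KerNum

/-!
# FUNC: sites as pairs of numbers, streams of blocks, expanders

* `prN`: a map of the sites on pairs (number of the point, number of the pad).
* `bitN`: a function of the sites on pairs of numbers.
* `spN`, `szN`: the expanders.
* `XFam.strN`: the bits of the code of a block, from the word of the block and the number of the
  point.
-/

namespace Vale.Agent.P330.H972

open Finset Vale.Agent.Lib.PolyTime Vale.Agent.P330.Q Vale.Agent.P330.FM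

section pair

variable {N : Code} {α : Type} [Enc α] {I : α → CInst N} (n : ∀ a, CNum (I a))

/-- number of the site with the numbers `q.2` of point and pad -/
def stN (q : α × ℕ × ℕ) : ℕ := q.2.1 * (n q.1).NZ + q.2.2

/-- A map of the sites, on pairs of numbers. -/
def prN (f : α → ℕ → ℕ) (q : α × ℕ × ℕ) : ℕ × ℕ :=
  (f q.1 (stN n q) / (n q.1).NZ, f q.1 (stN n q) % (n q.1).NZ)

variable {n}

omit [Enc α] in
theorem stN_eq (a : α) (p : (I a).P) (z : (I a).Z) :
    stN n (a, ((n a).eP p : ℕ), ((n a).eZ z : ℕ)) = (n a).num (p, z) := rfl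

omit [Enc α] in
theorem prN_eq {f : α → ℕ → ℕ} {a : α} {F : (I a).P × (I a).Z → (I a).P × (I a).Z}
    (hf : ∀ ω, f a ((n a).num ω) = (n a).num (F ω)) (p : (I a).P) (z : (I a).Z) :
    prN n f (a, ((n a).eP p : ℕ), ((n a).eZ z : ℕ)) =
      (((n a).eP (F (p, z)).1 : ℕ), ((n a).eZ (F (p, z)).2 : ℕ)) := by
  unfold prN
  rw [stN_eq]
  dsimp only
  rw [hf, (n a).num_div, (n a).num_mod]

variable {A : Set Word}

theorem PT_stN (h : CNum.OkPT A n) : PT A (stN n) :=
  PT.add (PT.mul PT.snd'.fst (h.NZ.comp PT.fst')) PT.snd'.snd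

theorem PT_prN (h : CNum.OkPT A n) {f : α → ℕ → ℕ} (hf : PT A fun q : α × ℕ => f q.1 q.2) :
    PT A (prN n f) := by
  have h1 : PT A fun q : α × ℕ × ℕ => f q.1 (stN n q) :=
    PT.comp (g := fun q : α × ℕ => f q.1 q.2) hf (PT.fst'.pair (PT_stN h))
  exact (PT.div h1 (h.NZ.comp PT.fst')).pair (PT.mod h1 (h.NZ.comp PT.fst'))

theorem PT_bitN (h : CNum.OkPT A n) {f : α → ℕ → Bool} (hf : PT A fun q : α × ℕ => f q.1 q.2) :
    PT A fun q : α × ℕ × ℕ => f q.1 (stN n q) :=
  PT.comp (g := fun q : α × ℕ => f q.1 q.2) hf (PT.fst'.pair (PT_stN h))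

/-! ### The raw reads -/

omit [Enc α] in
theorem rdP_eq (hn : ∀ a, (n a).Ok) (R : N.Raw) (a : α) (p : (I a).P) (z : (I a).Z) :
    prN n (fun a s => (n a).rdN R s) (a, ((n a).eP p : ℕ), ((n a).eZ z : ℕ)) =
      (((n a).eP ((I a).rd R (p, z)).1 : ℕ), ((n a).eZ ((I a).rd R (p, z)).2 : ℕ)) :=
  prN_eq (F := (I a).rd R) (fun ω => (hn a).rdN_num R ω) p z

theorem PT_rdP (h : CNum.OkPT A n) (R : N.Raw) : PT A (prN n fun a s => (n a).rdN R s) :=
  PT_prN h (CNum.OkPT.rdN (I := fun q : α × ℕ => I q.1) (n := fun q : α × ℕ => n q.1)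
    (h.comp' PT.fst') R PT.snd')

/-! ### The expanders -/

/-- The expander on the points, on numbers. -/
def spN (n : ∀ a, CNum (I a)) (k : Fin 4) (q : α × ℕ) : ℕ := S.mgN (n q.1).mP k q.2

/-- The expander on the pads, on numbers. -/
def szN (n : ∀ a, CNum (I a)) (k : Fin 4) (q : α × ℕ) : ℕ := S.mgN (n q.1).mZ k q.2

omit [Enc α] in
theorem spN_eq (hn : ∀ a, (n a).Ok) (k : Fin 4) (a : α) (p : (I a).P) :
    spN n k (a, ((n a).eP p : ℕ)) = (n a).eP ((n a).sP (hn a) k p) := (n a).mgN_sP (hn a) k p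

omit [Enc α] in
theorem szN_eq (hn : ∀ a, (n a).Ok) (k : Fin 4) (a : α) (z : (I a).Z) :
    szN n k (a, ((n a).eZ z : ℕ)) = (n a).eZ ((n a).sZ (hn a) k z) := (n a).mgN_sZ (hn a) k z

theorem PT_spN (h : CNum.OkPT A n) (k : Fin 4) : PT A (spN n k) :=
  S.PT_mgN (h.mP.comp PT.fst') PT.snd' _

theorem PT_szN (h : CNum.OkPT A n) (k : Fin 4) : PT A (szN n k) :=
  S.PT_mgN (h.mZ.comp PT.fst') PT.snd' _

end pair

/-! ### Moves of the second component of the point -/

namespace XFam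

variable {nC B m : ℕ} {C : XC nC B m} {S : XSpec} {α : Type} [Enc α] (U : XFam C S α)

/-- The move of the second component of the point in the read of the slot `t`. -/
noncomputable def shG (a : α) (t : Fin B) : (U.sk a).Y ≃ (U.sk a).Y :=
  (Equiv.refl (C.Y (U.k a))).prodCongr (shE (C.sys (U.k a)) (2 * U.k a * t))

/-- The site with the second component of the point moved as in the read of the slot `t`. -/
noncomputable def shS (a : α) (t : Fin B) : (U.sk a).P × (U.sk a).Z → (U.sk a).P × (U.sk a).Z :=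
  mvS (U.sk a) (U.shG a t)

theorem shS_bijective (a : α) (t : Fin B) : Function.Bijective (U.shS a t) := by
  have h : U.shS a t = ((U.shG a t).prodCongr (Equiv.refl (U.sk a).E)).prodCongr
      (Equiv.refl (U.sk a).Z) := by
    funext ω
    obtain ⟨⟨y, c⟩, z⟩ := ω
    rfl
  rw [h]
  exact Equiv.bijective _

/-- The move on numbers of pairs of points. -/
noncomputable def shYN (a : α) (t : Fin B) (x : ℕ) : ℕ :=
  mkP C.K (C.h (U.k a)) (x / cY C.K (C.h (U.k a)))
    (shiN C.K (C.h (U.k a)) (2 * U.k a * t) (x % cY C.K (C.h (U.k a))))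

theorem shYN_eq (a : α) (t : Fin B) (p : (U.sk a).Y) :
    U.shYN a t ((U.nm a).eY p) = (U.nm a).eY (U.shG a t p) :=
  (eYY_map_snd (f := fun y => shE (C.sys (U.k a)) (2 * U.k a * t) y)
    (fN := shiN C.K (C.h (U.k a)) (2 * U.k a * t)) (fun y => numZ_shi _ _ _
      ((stdX C (U.I a) U.σ (U.ε a) (U.s0 a) (U.hI0 a)).sh t y)) p).symm

theorem PT_shYN {β : Type} [Enc β] {g : β → α} {x : β → ℕ} (hg : PT ∅ g) (hx : PT ∅ x)
    (t : Fin B) : PT ∅ fun b => U.shYN (g b) t (x b) := by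
  have hh : PT ∅ fun b => C.h (U.k (g b)) := U.xd.PT_h.comp hg
  have hhb : PBd fun b => C.h (U.k (g b)) := U.xd.PB_h'.comp hg
  exact PT.mkP C.K hh hhb (PT.fstP C.K hh hhb hx)
    (PT.shiN C.K hh hhb (PT.mul (PT.mul (PT.const 2) (U.PT_k.comp hg)) (PT.const _))
      (PT.sndP C.K hh hhb hx))

/-- The move on numbers of sites. -/
noncomputable def shSN (t : Fin B) (a : α) (s : ℕ) : ℕ := mvSN (U.nm a) (U.shYN a t) s

theorem shSN_num (t : Fin B) (a : α) (ω : (U.sk a).P × (U.sk a).Z) :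
    U.shSN t a ((U.nm a).num ω) = (U.nm a).num (U.shS a t ω) :=
  mvSN_num (U.shYN_eq a t) ω

theorem PT_shSN (t : Fin B) : PT ∅ fun q : α × ℕ => U.shSN t q.1 q.2 := by
  have h0 : CNum.OkPT ∅ (I := fun q : α × ℕ => U.sk q.1) (fun q : α × ℕ => U.nm q.1) :=
    U.nm_pt.comp' PT.fst'
  refine PT_mvSN (n := fun q : α × ℕ => U.nm q.1) h0 (gN := fun q => U.shYN q.1 t) ?_ PT.snd'
  exact U.PT_shYN PT.fst'.fst (PT.min PT.snd' (U.nm_pt.nY.comp PT.fst'.fst)) t

/-! ### The code domain on numbers -/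

/-- The numbers of the points of the code domain. -/
noncomputable def en : ENum ∅ (fun a => C.h (U.k a)) (Y := fun a => C.Y (U.k a))
    fun a => C.sys (U.k a) := C.en U.PT_k U.PB_k

/-- The number of the first component of the point. -/
noncomputable def rhoN (a : α) (p : ℕ) : ℕ := p / (U.nm a).Qc / cY C.K (C.h (U.k a))

/-- The number of the second component of the point. -/
noncomputable def yN (a : α) (p : ℕ) : ℕ := p / (U.nm a).Qc % cY C.K (C.h (U.k a))

/-- The number of the functional of the point. -/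
noncomputable def fuN (a : α) (p : ℕ) : ℕ := p % (U.nm a).Qc

/-- The point. -/
def pyy (a : α) (p : (U.sk a).P) : YY C.K (C.h (U.k a)) × YY C.K (C.h (U.k a)) := p.1

theorem eP_div (a : α) (p : (U.sk a).P) :
    ((U.nm a).eP p : ℕ) / (U.nm a).Qc = eYY C.K (C.h (U.k a)) (U.pyy a p) := by
  rw [(U.nm a).eP_val, add_comm, Nat.add_mul_div_right _ _ (U.nm a).Qc_pos,
    Nat.div_eq_of_lt ((U.nm a).cE p.2).2, zero_add]
  rfl

theorem fuN_eq (a : α) (p : (U.sk a).P) : U.fuN a ((U.nm a).eP p) = (U.nm a).cE p.2 := by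
  unfold fuN
  rw [(U.nm a).eP_val, add_comm, Nat.add_mul_mod_self_right,
    Nat.mod_eq_of_lt ((U.nm a).cE p.2).2]

/-- The first component of the point. -/
def py1 (a : α) (p : (U.sk a).P) : C.Y (U.k a) := (U.pyy a p).1

/-- The second component of the point. -/
def py2 (a : α) (p : (U.sk a).P) : C.Y (U.k a) := (U.pyy a p).2

theorem rhoN_eq (a : α) (p : (U.sk a).P) :
    U.rhoN a ((U.nm a).eP p) = (U.en.num a (U.py1 a p) : ℕ) := by
  unfold rhoN
  rw [U.eP_div, eYY_fst]
  rfl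

theorem yN_eq (a : α) (p : (U.sk a).P) :
    U.yN a ((U.nm a).eP p) = (U.en.num a (U.py2 a p) : ℕ) := by
  unfold yN
  rw [U.eP_div, eYY_snd]
  rfl

section pt

variable {β : Type} [Enc β] {g : β → α} {p : β → ℕ} (hg : PT ∅ g) (hp : PT ∅ p)

include hg hp

theorem PT_fuN : PT ∅ fun b => U.fuN (g b) (p b) := PT.mod hp (U.nm_pt.Qc.comp hg)

theorem PT_rhoN : PT ∅ fun b => U.rhoN (g b) (p b) :=
  PT.div (PT.div hp (U.nm_pt.Qc.comp hg))
    (PT.cY C.K (U.xd.PT_h.comp hg) (U.xd.PB_h'.comp hg))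

theorem PT_yN : PT ∅ fun b => U.yN (g b) (p b) :=
  PT.mod (PT.div hp (U.nm_pt.Qc.comp hg))
    (PT.cY C.K (U.xd.PT_h.comp hg) (U.xd.PB_h'.comp hg))

end pt

/-! ### Streams -/

/-- The bits of the code of the array `x`. -/
noncomputable def strB (a : α) (x : Addr (U.k a) → C.K) (l : C.K) (p : (U.sk a).P) : Bool :=
  decide (C.φ (l * (C.sys (U.k a)).code x (U.py2 a p)) = 1)

/-- The bits of the code of a block on numbers: from the word of the block. -/
noncomputable def strN (l : C.K) (q : α × Word × ℕ) : Bool :=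
  decide (C.φ (l * U.en.code q.1 (U.k q.1) (fun i => if q.2.1.getD i false = true then 1 else 0)
    (U.yN q.1 q.2.2)) = 1)

theorem strN_eq (l : C.K) (a : α) (w : Word) {x : Addr (U.k a) → C.K}
    (hx : ∀ i, i < 2 ^ U.k a → x (adr (U.k a) i) = if w.getD i false = true then 1 else 0)
    (p : (U.sk a).P) : U.strN l (a, w, ((U.nm a).eP p : ℕ)) = U.strB a x l p := by
  have h1 : U.en.code a (U.k a) (fun i => if w.getD i false = true then (1 : C.K) else 0)
      (U.yN a ((U.nm a).eP p : ℕ)) = (C.sys (U.k a)).code x (U.py2 a p) := by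
    rw [U.yN_eq, ← U.en.code_num a (U.k a) x (U.py2 a p)]
    unfold ENum.code
    refine Finset.sum_congr rfl fun i hi => ?_
    dsimp only
    rw [hx i (Finset.mem_range.1 hi)]
  unfold strN strB
  dsimp only
  rw [h1]

theorem PT_strN (l : C.K) : PT ∅ (U.strN l) := by
  have h1 : PTt ∅ fun q : α × Word × ℕ => U.en.code q.1 (U.k q.1)
      (fun i => if q.2.1.getD i false = true then (1 : C.K) else 0) (U.yN q.1 q.2.2) := by
    refine U.en.PT_code PT.fst' (U.PT_k.comp PT.fst') (U.PB_k.comp (PT.fst' (A := ∅))) ?_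
      (U.PT_yN PT.fst' PT.snd'.snd)
    have h2 : PT ∅ fun p : (α × Word × ℕ) × ℕ => p.1.2.1.getD (min p.2 (2 ^ U.k p.1.1)) false := by
      refine PT.getD PT.fst'.snd.fst (PT.min PT.snd' ?_) (PT.const false)
      exact PT.pow (PT.const 2) (U.PT_k.comp PT.fst'.fst)
        ((U.PB_k.mono fun _ => Nat.lt_two_pow_self.le).comp (PT.fst' (A := ∅)).fst)
    exact (PTt.ofBool h2 fun b => if b = true then (1 : C.K) else 0)
  exact h1.mapP fun x => decide (C.φ (l * x) = 1)

end XFam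

end Vale.Agent.P330.H972
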