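import Vale.Agent.P330.H972.XSize
import Vale.Agent.P330.H972.XPair
import Vale.Agent.P330.FM.PBits

/-!
# FUNC: the family of the machines of a tableau, blocks and their codes

For a tableau `τ` with `kk` words of external bits and a family `m : α → ℕ` of lengths:
`mmf : FM.MFam C (spec τ) α`, `mfam : XFam C (spec τ) α`.  A block is a word of length `m a`; `extB` are the external bits of a
block, `encB` the bits of its code.
-/

namespace Vale.Agent.P330.H972

open Finset Vale.Agent.Lib.PolyTime Vale.Agent.P330.Q Vale.Agent.P330.FM Vale.Agent.P330.FM.TM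
open Vale.Agent.P330.H800

/-- The number of contents of a cell. -/
noncomputable abbrev nCm {kk : ℕ} (τ : Tab kk) : ℕ := Fintype.card (spec τ).Cell

/-- The number of slots. -/
noncomputable abbrev nBm {kk : ℕ} (τ : Tab kk) : ℕ := Fintype.card (XSlot (spec τ))

/-- The slots. -/
noncomputable def σm {kk : ℕ} (τ : Tab kk) : XSlot (spec τ) ≃ Fin (nBm τ) := Fintype.equivFin _

/-- **The family of the machines**, with numbers. -/
noncomputable def mmf {kk mm : ℕ} {τ : Tab kk} (C : XC (nCm τ) (nBm τ) mm) (c : ℕ) {α : Type}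
    [Enc α] {m : α → ℕ} (hm : PT ∅ m) (hb : PBd m) : FM.MFam C (spec τ) α where
  σ := σm τ
  k x := 2 * aOf c (m x)
  PT_k := PT_two_mul (PT_aOf c hm)
  PB_k := PBd_two_pow_two_mul (PBd_aOf c hb)
  I x := inst τ (good_aOf c (m x))
  X := xnum τ (PT_aOf c hm) (PBd_aOf c hb) hm fun x => good_aOf c (m x)
  facts x s := TM.facts (good_aOf c (m x)) s
  bl := TM.bl τ
  hb := blankOK τ
  bl_w0 x j := blank_w0 (good_aOf c (m x)) j
  bl_back x s j := blank_back (good_aOf c (m x)) s j
  h0 _ := 0
  PT_h0 := PT.const 0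
  head x := head_w0 τ (PT_aOf c hm) (PBd_aOf c hb) hm (fun x => good_aOf c (m x)) x

/-- **The family of the machines.** -/
noncomputable def mfam {kk mm : ℕ} {τ : Tab kk} (C : XC (nCm τ) (nBm τ) mm) (c : ℕ) {α : Type}
    [Enc α] {m : α → ℕ} (hm : PT ∅ m) (hb : PBd m) : XFam C (spec τ) α := (mmf C c hm hb).fam

/-- **The number of the sites** is polynomial in `m`. -/
theorem mfam_size {kk mm : ℕ} {τ : Tab kk} (C : XC (nCm τ) (nBm τ) mm) (c : ℕ) {α : Type}
    [Enc α] {m : α → ℕ} (hm : PT ∅ m) (hb : PBd m) :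
    Bd m fun a => ((mfam C c hm hb).nm a).NP * ((mfam C c hm hb).nm a).NZ := by
  refine XFam.size _ ?_
  have h1 : Bd m fun a => (m a + 2) ^ 1 := ⟨1, fun a => le_refl _⟩
  have h2 : Bd m fun a => 4 * (m a + 2) ^ (c + 1) :=
    (Bd.const m 4).mul ⟨c + 1, fun a => le_refl _⟩
  refine (h2.pow 2).mono fun a => ?_
  show 2 ^ (2 * aOf c (m a)) ≤ _
  rw [mul_comm, pow_mul]
  exact Nat.pow_le_pow_left (aOf_le c (m a)) 2

/-! ### Blocks -/

/-- The external bits of a block. -/
def extB {n L : ℕ} (b : Fin n → Bool) (j : ZMod L) : Bool :=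
  if h : j.val < n then b ⟨j.val, h⟩ else false

theorem extB_of_le {n L : ℕ} (b : Fin n → Bool) {j : ZMod L} (h : n ≤ j.val) :
    extB b j = false := dif_neg (not_lt.2 h)

theorem extB_of_lt {n L : ℕ} (b : Fin n → Bool) {j : ZMod L} (h : j.val < n) :
    extB b j = b ⟨j.val, h⟩ := dif_pos h

theorem extB_eq_getD {n L : ℕ} (b : Fin n → Bool) (j : ZMod L) :
    extB b j = (List.ofFn b).getD j.val false := by
  unfold extB
  split_ifs with h
  · rw [List.getD_eq_getElem?_getD, List.getElem?_ofFn, dif_pos h]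
    rfl
  · rw [List.getD_eq_getElem?_getD, List.getElem?_ofFn, dif_neg h]
    rfl

section

variable {kk mm : ℕ} {τ : Tab kk} (C : XC (nCm τ) (nBm τ) mm) (c : ℕ) {α : Type} [Enc α]
  {m : α → ℕ} (hm : PT ∅ m) (hb : PBd m)

/-- The array of a block. -/
noncomputable def arrB (k : ℕ) {n : ℕ} (b : Fin n → Bool) (x : Addr k) : C.K :=
  if extB b ((epsZ k).symm x) = true then 1 else 0

theorem arrB_adr {k n i : ℕ} (b : Fin n → Bool) (hi : i < 2 ^ k) :
    arrB C k b (adr k i) = if (List.ofFn b).getD i false = true then 1 else 0 := by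
  unfold arrB
  rw [epsZ_symm_adr, extB_eq_getD, val_ptZ, Nat.mod_eq_of_lt hi]

/-- The bits of the code of a block. -/
noncomputable def encB (a : α) (b : Fin (m a) → Bool) (l : C.K)
    (p : ((mfam C c hm hb).sk a).P) : Bool :=
  (mfam C c hm hb).strB a (arrB C _ b) l p

/-- The bits of the code of a block on numbers. -/
noncomputable def encBN : C.K → α × Word × ℕ → Bool := (mfam C c hm hb).strN

theorem encBN_eq (l : C.K) (a : α) (b : Fin (m a) → Bool) (p : ((mfam C c hm hb).sk a).P) :
    encBN C c hm hb l (a, List.ofFn b, (((mfam C c hm hb).nm a).eP p : ℕ)) =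
      encB C c hm hb a b l p :=
  (mfam C c hm hb).strN_eq l a (List.ofFn b) (x := arrB C _ b) (fun _ hi => arrB_adr C b hi) p

theorem PT_encBN (l : C.K) : PT ∅ (encBN C c hm hb l) := (mfam C c hm hb).PT_strN l

end

end Vale.Agent.P330.H972
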