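import Vale.Agent.P330.H972.FInstD
import Vale.Agent.P330.FM.LSoundR

/-!
# FUNC: soundness of the inner local codes of the class
-/

namespace Vale.Agent.P330.H972

open Finset Vale.Agent.P330.Q Vale.Agent.P330.FM Vale.Agent.P330.FM.TM
open Vale.Agent.P330.H800 (Tab)

variable {kk mm : ℕ} {τ : Tab kk} {C : XC (nCm τ) (nBm τ) mm} (d : FDefs C)

/-- **Soundness of the inner local codes.** -/
theorem lsoundR_inn (hC : Fintype.card (spec τ).Cell = nCm τ) :
    LSoundR (fspec d).N (innClass (ClassF d)) :=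
  lsoundR (θ := 1 / 4) (ρ₁ := ρX C (spec τ)) (g := 73 / 80) (by norm_num) (ρX_pos C) (by norm_num)
    (fun L hL => factsClassK C hC L (innClass_le d L hL))
    (fun η hη => by
      obtain ⟨κ, h0, h⟩ := testSoundK C (spec τ) η hη
      exact ⟨κ, h0, fun I hI => h I (innClass_le d I hI)⟩)

end Vale.Agent.P330.H972
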