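import Vale.Agent.P330.H972.FInstD

/-!
# FUNC: the numbers of the concrete functional system

Numbers of the points and pads of `finst`, its maps, expanders, streams and public bits on numbers,
in polynomial time.
-/

namespace Vale.Agent.P330.H972

open Finset Vale.Agent.Lib.PolyTime Vale.Agent.P330.Q Vale.Agent.P330.FM Vale.Agent.P330.FM.TM
open Vale.Agent.P330.H800 (Tab)
open Vale.Agent.P330.H475 (Wd wd toWd)

namespace FN

variable {kk mm : ℕ} {τ : Tab kk} {C : XC (nCm τ) (nBm τ) mm} (d : FDefs C) (c : ℕ)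
  {α : Type} [Enc α] {m : α → ℕ} (hm : PT ∅ m) (hb : PBd m)

/-- number of points -/
noncomputable def nP (C : XC (nCm τ) (nBm τ) mm) (a : α) : ℕ := ((mfam C c hm hb).nm a).NP

/-- number of pads -/
noncomputable def nZ (C : XC (nCm τ) (nBm τ) mm) (a : α) : ℕ := ((mfam C c hm hb).nm a).NZ

theorem PT_nP : PT ∅ (nP c hm hb C) := (mfam C c hm hb).nm_pt.NP

theorem PT_nZ : PT ∅ (nZ c hm hb C) := (mfam C c hm hb).nm_pt.NZ

theorem size : ∃ e : ℕ, ∀ a, nP c hm hb C a * nZ c hm hb C a ≤ (m a + 2) ^ e :=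
  mfam_size C c hm hb

noncomputable def eP (a : α) : (finst d c hm hb a).P ≃ Fin (nP c hm hb C a) :=
  ((mfam C c hm hb).nm a).eP

noncomputable def eZ (a : α) : (finst d c hm hb a).Z ≃ Fin (nZ c hm hb C a) :=
  ((mfam C c hm hb).nm a).eZ

/-- the expanders on numbers -/
noncomputable def sPN (C : XC (nCm τ) (nBm τ) mm) (k : Fin 4) : α × ℕ → ℕ :=
  spN (mfam C c hm hb).nm k

noncomputable def sZN (C : XC (nCm τ) (nBm τ) mm) (k : Fin 4) : α × ℕ → ℕ :=
  szN (mfam C c hm hb).nm k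

theorem PT_sPN (k : Fin 4) : PT ∅ (sPN c hm hb C k) := PT_spN (mfam C c hm hb).nm_pt k

theorem PT_sZN (k : Fin 4) : PT ∅ (sZN c hm hb C k) := PT_szN (mfam C c hm hb).nm_pt k

theorem sPN_eq (k : Fin 4) (a : α) (p : (finst d c hm hb a).P) :
    sPN c hm hb C k (a, (eP d c hm hb a p : ℕ)) = eP d c hm hb a ((finst d c hm hb a).sP k p) :=
  spN_eq (mfam C c hm hb).nm_ok k a p

theorem sZN_eq (k : Fin 4) (a : α) (z : (finst d c hm hb a).Z) :
    sZN c hm hb C k (a, (eZ d c hm hb a z : ℕ)) = eZ d c hm hb a ((finst d c hm hb a).sZ k z) :=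
  szN_eq (mfam C c hm hb).nm_ok k a z

/-- the bits of the code of a block on numbers -/
noncomputable def encN (C : XC (nCm τ) (nBm τ) mm) (l : C.K) : α × Word × ℕ → Bool :=
  encBN C c hm hb l

theorem PT_encN (l : C.K) : PT ∅ (encN c hm hb C l) := PT_encBN C c hm hb l

theorem encN_eq (l : C.K) (a : α) (s : Wd (m a)) (p : (finst d c hm hb a).P) :
    encN c hm hb C l (a, wd s, (eP d c hm hb a p : ℕ)) = (finst d c hm hb a).enc s l p :=
  encBN_eq C c hm hb l a s p

/-- the maps of the sites on numbers -/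
noncomputable def rdN (C : XC (nCm τ) (nBm τ) mm) : RdM C → α × ℕ × ℕ → ℕ × ℕ
  | .inl R => prN (mfam C c hm hb).nm fun a s => ((mfam C c hm hb).nm a).rdN R s
  | .inr t => prN (mfam C c hm hb).nm fun a s => (mfam C c hm hb).shSN t a s

theorem PT_rdN (R : RdM C) : PT ∅ (rdN c hm hb C R) := by
  rcases R with R | t
  · exact PT_rdP (mfam C c hm hb).nm_pt R
  · exact PT_prN (mfam C c hm hb).nm_pt ((mfam C c hm hb).PT_shSN t)

theorem rdN_eq (R : RdM C) (a : α) (p : (finst d c hm hb a).P) (z : (finst d c hm hb a).Z) :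
    rdN c hm hb C R (a, (eP d c hm hb a p : ℕ), (eZ d c hm hb a z : ℕ)) =
      ((eP d c hm hb a ((finst d c hm hb a).rd R (p, z)).1 : ℕ),
        (eZ d c hm hb a ((finst d c hm hb a).rd R (p, z)).2 : ℕ)) := by
  rcases R with R | t
  · exact rdP_eq (mfam C c hm hb).nm_ok R a p z
  · exact prN_eq (fun ω => (mfam C c hm hb).shSN_num t a ω) p z

/-- the public bits on numbers -/
noncomputable def cbN (C : XC (nCm τ) (nBm τ) mm) (v : PB C (spec τ)) : α × Word × ℕ × ℕ → Bool :=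
  (mmf C c hm hb).cbN v

theorem PT_cbN (v : PB C (spec τ)) : PT ∅ (cbN c hm hb C v) := (mmf C c hm hb).PT_cbN v

theorem cbN_eq (v : PB C (spec τ)) (a : α) (w : Word) (p : (finst d c hm hb a).P)
    (z : (finst d c hm hb a).Z) :
    cbN c hm hb C v (a, w, (eP d c hm hb a p : ℕ), (eZ d c hm hb a z : ℕ)) =
      (finst d c hm hb a).cb v (p, z) :=
  (mmf C c hm hb).cbN_eq v a w p _

end FN

end Vale.Agent.P330.H972
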