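import Vale.Agent.P330.FM.XDom
import Vale.Agent.P330.FM.Par
import Vale.Agent.P330.Q.LowFacts
import Vale.Agent.P330.Q.Sound
import Vale.Agent.P330.Q.Gen
import Vale.Agent.P330.Q.NumMv

/-!
# FUNC: the facts about the local codes of machines with external bits

`C : XC nC B m`: constants and field.  For a machine with external bits `S`, an instance `I`, a
numbering `ε` of its positions by `k` address bits and external bits `s`: `famX C I σ ε s ..` is the
local code `CInst (codeX C S)` of the machine.  Degree facts (`degX`, `degReg`), `CFacts`,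
`IdSound`, `LInst.Facts`; `ClassX`, `testSoundX`, `lsoundX`.
-/

namespace Vale.Agent.P330.H972

open Finset Vale.Agent.P330.Q Vale.Agent.P330.FM
open Vale.Agent.P318.S (PolyLe Low)

variable {nC B m : ℕ} (C : XC nC B m) {S : XSpec}

/-! ### Degrees -/

section deg

variable {k : ℕ} (I : XInst S) (σ : XSlot S ≃ Fin B) (ε : I.J ≃ Addr k)

/-- The public kernels have low degree. -/
theorem xker_low (c : Chn S.Cell (XVOut S)) (γ : Fin B → Option (XCt S)) (ρ₀ y : C.Y k)
    (i j : C.ι k) :
    PolyLe C.K (fun u => xker (C.sys k) I σ ε c γ (ρ₀ + C.dir k i u) (y + C.dir k j u))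
      (2 * C.P0.t) :=
  ker_low (C.sys k) (fun f y i => C.E_low k f y i) (liveG γ)
    (kerXF C.K I σ ε (xoutOf c) γ) ρ₀ y i j


/-- In the first variable alone the degree is at most `t`. -/
theorem xker_low1 (c : Chn S.Cell (XVOut S)) (γ : Fin B → Option (XCt S)) (ρ₀ y : C.Y k)
    (i : C.ι k) :
    PolyLe C.K (fun u => xker (C.sys k) I σ ε c γ (ρ₀ + C.dir k i u) y) C.P0.t := by
  unfold xker ESys.ker
  refine PolyLe.sum _ fun a _ => PolyLe.sum _ fun α _ => ?_
  have h1 := (C.E_low k (mon C.K (muS (C.h k) 0 a)) ρ₀ i).const_smul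
    (kerXF C.K I σ ε (xoutOf c) γ a α * (C.sys k).E (mon C.K (dualS (C.h k) (liveG γ) α)) y)
  refine h1.congr fun u => ?_
  rw [smul_eq_mul]
  ring

/-- The external words have low degree. -/
theorem xword_low (s : S.Ext → I.J → Bool) (l : S.Ext × Bool) (y : C.Y k) (j : C.ι k) :
    PolyLe C.K (fun u => xword (C.sys k) I ε s l (y + C.dir k j u)) C.P0.t :=
  code_low (C.sys k) (fun f y i => C.E_low k f y i) (lit (extA I ε s) l) y j

variable (s : S.Ext → I.J → Bool) (hI : I.Facts s)

/-- The degree facts without the kernels. -/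
noncomputable def degBase :
    DegData (setK (xdata (C.sys k) I σ ε s hI) fun _ _ _ _ => 0) (C.dir k) C.P0.t where
  mθ := C.mv k
  mθ_g := rfl
  msh s := (C.mv k).inv.pow (2 * k * s)
  msh_g s := by
    apply Equiv.ext
    intro y
    show ((C.mv k).inv.pow (2 * k * s)).g y = shE (C.sys k) (2 * k * s) y
    rw [shE_apply, Move.pow_g]
    unfold ESys.θi
    congr 2
  K_low _ _ _ _ _ _ := PolyLe.zero _
  cd_low w e y j := code_low (C.sys k) (fun f y i => C.E_low k f y i) (xcf I ε w e) y j

/-- The degree facts of the machine with absorbed external words. -/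
noncomputable def degX : DegData (xdata (C.sys k) I σ ε s hI) (C.dir k) C.P.t :=
  DegData.absorb (degBase C I σ ε s hI) (t' := C.P.t) (K := xker (C.sys k) I σ ε)
    (S := xword (C.sys k) I ε s) (xker_low C I σ ε) (xword_low C I ε s)
    (Nat.le_mul_of_pos_left _ (by omega)) (by
      rw [C.P_t]
      have h : (B + 2) * C.P0.t = B * C.P0.t + 2 * C.P0.t := by ring
      omega)

/-- The degree facts of the regrouped kernels. -/
noncomputable def degReg (own : S.Ext × Bool → S.Cell → Bool) :
    DegData (setK (xdata (C.sys k) I σ ε s hI) (regroup own (xker (C.sys k) I σ ε)))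
      (C.dir k) C.P.t :=
  DegData.regroup (degBase C I σ ε s hI) (t' := C.P.t) own (K := xker (C.sys k) I σ ε)
    (xker_low C I σ ε) (Nat.le_mul_of_pos_left _ (by omega)) (by
      rw [C.P_t]
      exact Nat.mul_le_mul_left _ (Nat.le_mul_of_pos_left _ (by omega)))

/-- The translations of the digit `0` and the shift generate. -/
theorem genX : (xdata (C.sys k) I σ ε s hI).Gen (C.dg k) := fun f h1 h2 y y' =>
  gen_YY C.K f (fun y => h1 y) (fun x y => h2 x y) y y'

/-- The shift, `e0` and the reads are the standard ones. -/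
theorem stdX : StdDom (xdata (C.sys k) I σ ε s hI) k where
  θ _ := rfl
  e0 := by
    show (C.sys k).ι (ev 0) = _
    unfold XC.sys
    rw [ysys_ι]
  sh t y j := by
    show shE (C.sys k) (2 * k * t) y j = _
    rw [shE_apply]
    exact iterate_theta_symm _ y j

end deg

/-! ### The code -/

noncomputable instance (S : XSpec) : DecidableEq (XVOut S) := Classical.decEq _
noncomputable instance : DecidableEq (CK C.K) := Classical.decEq _

/-- The finite data of the code. -/
noncomputable abbrev codeX (S : XSpec) : Code :=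
  mkCode S.Cell (XVOut S) B C.φ C.φ_ne C.P.Dc (C.P.Dc_1' C.card_K) (C.P.Dc_2' C.card_K)
    (tHalf S.Cell (XVOut S) (TY C.K) B C.φ)

section inst

variable {k : ℕ} (I : XInst S) (σ : XSlot S ≃ Fin B) (ε : I.J ≃ Addr k)
  (s : S.Ext → I.J → Bool) (hI : I.Facts s)

include σ in
theorem one_le_B : 1 ≤ B := by
  have h1 := Fintype.card_congr σ
  rw [Fintype.card_fin] at h1
  rw [← h1]
  exact Fintype.card_pos_iff.2 ⟨.inl none⟩

/-- The domain of the machine. -/
noncomputable def domX : Dom C.K (C.h k) B (C.Y k) S.Cell (XVOut S) (I.J → S.Cell) :=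
  xdom (C.sys k) I σ ε s hI (C.le_h k) (C.le_h' (one_le_B σ) k)

theorem domX_toDomData :
    (domX C I σ ε s hI).toDomData = xdata (C.sys k) I σ ε s hI := rfl

/-- The moves, functionals and public bits of the test. -/
noncomputable def tinX : TInst (tHalf S.Cell (XVOut S) (TY C.K) B C.φ) C.K (C.Y k) S.Cell
    (XVOut S) (C.h k) :=
  tInst (domX C I σ ε s hI).toDomData (C.dg k) C.φ

/-- **The instance.** -/
noncomputable def famX : CInst (codeX C S) :=
  mkInst (domX C I σ ε s hI) 1 (tinX C I σ ε s hI) (pdir (C.dir k) (C.dir k)) (C.Y_add_self k)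

theorem card_codeX : Fintype.card (codeX C S).F = C.P.q := C.card_K

/-- **The facts of the code.** -/
theorem factsX : (famX C I σ ε s hI).CFacts C.lam := by
  refine mkInst_facts (M := domX C I σ ε s hI) (TI := tinX C I σ ε s hI)
    (r := pdir (C.dir k) (C.dir k)) (h2 := C.Y_add_self k) C.φ_one (fun i => ?_)
    (C.spr k).2.2 (fun st i p => ?_) fun st hst p c => ?_
  · exact pdir_injective _ _ i (C.dir_injective k i.1)
  · refine (degX C I σ ε s hI).word_Low (d := Fintype.card C.K - 2 - C.P.Dc) ?_ st p i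
    rw [C.card_K, C.P.Dc_3]
    exact le_refl _
  · exact test_ok (domX C I σ ε s hI) (C.dg k) C.φ_ne st hst p c

theorem lowX (st : (famX C I σ ε s hI).St) :
    (famX C I σ ε s hI).IsWord ((famX C I σ ε s hI).sec st) :=
  (factsX C I σ ε s hI).low st

end inst

/-! ### Numbers of the soundness -/

/-- The number of the values read by the test. -/
noncomputable def nX (S : XSpec) : ℕ :=
  Fintype.card (Fn S.Cell (XVOut S) × Mv B (TY C.K))

/-- The fraction of the bad directions. -/
noncomputable def κX (S : XSpec) : ℝ := 1 / (4 * (nX C S + 1))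

theorem κX_pos : 0 < κX C S := by
  unfold κX
  positivity

theorem lam_pos : 0 < C.lam := C.P.lamQ_pos

section inst

variable {k : ℕ} (I : XInst S) (σ : XSlot S ≃ Fin B) (ε : I.J ≃ Addr k)
  (s : S.Ext → I.J → Bool) (hI : I.Facts s)

/-- **Soundness of the identities.** -/
theorem idSoundX : (famX C I σ ε s hI).IdSound (κX C S) (1 / 4) := by
  have h0 := C.P.hids (n := nX C S) (d1 := C.P.d') (le_refl _)
  refine mkInst_idSound (domX C I σ ε s hI) 1 (C.dg k) (degX C I σ ε s hI)
    (genX C I σ ε s hI) (C.Y_add_self k) (lam_pos C).le (C.spr k).2.2 h0.1 ?_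
  rw [C.card_K, C.P.Dc_3]
  exact h0.2

end inst

/-- A radius of the sampler. -/
theorem sound_radiusX (S : XSpec) : ∃ ρ₁ : ℝ, 0 < ρ₁ ∧ ρ₁ < 1 ∧
    ((Fintype.card (codeX C S).K * (2 * (Fintype.card (codeX C S).F - 1)) : ℕ) : ℝ) * ρ₁ ≤
      1 / 16 :=
  Pars.exists_rho _

/-- The radius of the sampler. -/
noncomputable def ρX (S : XSpec) : ℝ := (sound_radiusX C S).choose

theorem ρX_pos : 0 < ρX C S := (sound_radiusX C S).choose_spec.1
theorem ρX_lt : ρX C S < 1 := (sound_radiusX C S).choose_spec.2.1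

section inst

variable {k : ℕ} (I : XInst S) (σ : XSlot S ≃ Fin B) (ε : I.J ≃ Addr k)
  (s : S.Ext → I.J → Bool) (hI : I.Facts s)

/-- **The facts of the local code.** -/
theorem lfactsX (hC : Fintype.card S.Cell = nC)
    (sP : Fin 4 → (famX C I σ ε s hI).P ≃ (famX C I σ ε s hI).P)
    (sZ : Fin 4 → (famX C I σ ε s hI).Z ≃ (famX C I σ ε s hI).Z) {g : ℝ}
    (gapP : H855.Gap sP g) (gapZ : H855.Gap sZ g) :
    ((famX C I σ ε s hI).toLInst sP sZ (lowX C I σ ε s hI)).Facts (1 / 4) (ρX C S) g := by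
  refine (famX C I σ ε s hI).facts (factsX C I σ ε s hI) (lam_pos C).le sP sZ gapP gapZ ?_
    (sound_radiusX C S).choose_spec.2.2 ?_
  · exact C.P.hlam (F := C.K) (Cell := S.Cell) C.card_K hC
  · exact C.P.htheta (F := C.K) C.card_K

end inst

/-- The class of the local codes of the family, for expanders of gap `g`. -/
def ClassX (S : XSpec) (σ : XSlot S ≃ Fin B) (g : ℝ) (L : LInst (codeX C S).spec) : Prop :=
  ∃ (k : ℕ) (I : XInst S) (ε : I.J ≃ Addr k) (s : S.Ext → I.J → Bool) (hI : I.Facts s)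
    (sP : Fin 4 → (famX C I σ ε s hI).P ≃ (famX C I σ ε s hI).P)
    (sZ : Fin 4 → (famX C I σ ε s hI).Z ≃ (famX C I σ ε s hI).Z),
    H855.Gap sP g ∧ H855.Gap sZ g ∧
      L = (famX C I σ ε s hI).toLInst sP sZ (lowX C I σ ε s hI)

theorem classX_mk {k : ℕ} (I : XInst S) (σ : XSlot S ≃ Fin B) (ε : I.J ≃ Addr k)
    (s : S.Ext → I.J → Bool) (hI : I.Facts s)
    (sP : Fin 4 → (famX C I σ ε s hI).P ≃ (famX C I σ ε s hI).P)
    (sZ : Fin 4 → (famX C I σ ε s hI).Z ≃ (famX C I σ ε s hI).Z) {g : ℝ}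
    (gapP : H855.Gap sP g) (gapZ : H855.Gap sZ g) :
    ClassX C S σ g ((famX C I σ ε s hI).toLInst sP sZ (lowX C I σ ε s hI)) :=
  ⟨k, I, ε, s, hI, sP, sZ, gapP, gapZ, rfl⟩

/-- **Soundness of the test.** -/
theorem testSoundX (σ : XSlot S ≃ Fin B) (g : ℝ) :
    TestSound (codeX C S).spec (ClassX C S σ g) := by
  refine testSound (lam := C.lam) (κ := κX C S) (τ := 1 / 4) ?_ (κX_pos C) (by norm_num) _ ?_
  · rw [card_codeX]
    exact C.P.q_mul_lam
  · rintro L ⟨k, I, ε, s, hI, sP, sZ, -, -, rfl⟩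
    exact ⟨famX C I σ ε s hI, sP, sZ, factsX C I σ ε s hI, idSoundX C I σ ε s hI, rfl⟩

/-- **Soundness of the network.** -/
theorem lsoundX (hC : Fintype.card S.Cell = nC) (σ : XSlot S ≃ Fin B) {g : ℝ} (hg : g < 1) :
    LSound (codeX C S).spec (ClassX C S σ g) := by
  refine lsound (θ := 1 / 4) (ρ₁ := ρX C S) (g := g) (by norm_num) (ρX_pos C) hg ?_
    (testSoundX C σ g)
  rintro L ⟨k, I, ε, s, hI, sP, sZ, gP, gZ, rfl⟩
  exact lfactsX C I σ ε s hI hC sP sZ gP gZ

end Vale.Agent.P330.H972
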