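import Vale.Agent.P330.H972.XCore
import Vale.Agent.P330.FM.FSys

/-!
# FUNC: functional systems over a code of low degree words

`gspec N ..`: a functional system whose inner local code is `N.spec`.  `ginst I₀ ..`: an instance
with the points, pads and reads of `I₀ : CInst N`; `ginst_toL`: the inner local codes are
`(wSt I₀ (D s)).toLInst`.
-/

namespace Vale.Agent.P330.H972

open Finset Vale.Agent.P330.Q Vale.Agent.P330.FM
open Vale.Agent.P330.S (BitDef b2)

/-- The finite data, besides the code: names of input blocks, bits of a block, further maps of the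
sites, public bits; definitions of the hard-wired bits, of the output and of the flag. -/
structure GSpec (N : Code) where
  K : Type
  fK : Fintype K
  dK : DecidableEq K
  L : Type
  fL : Fintype L
  dL : DecidableEq L
  Mv : Type
  CB : Type
  hw : N.V → BitDef (K × L) (N.Raw ⊕ Mv) CB
  xo : L → BitDef Unit (N.Raw ⊕ Mv) CB
  tt : BitDef Unit (N.Raw ⊕ Mv) CB

attribute [instance] GSpec.fK GSpec.dK GSpec.fL GSpec.dL

/-- **The functional system.**  The corrected reads of streams are the reads along the first line of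
the corrected read of the code. -/
def gspec {N : Code} (G : GSpec N) : FSpec where
  N := N.spec
  fCB := N.fV
  K := G.K
  fK := G.fK
  dK := G.dK
  L := G.L
  fL := G.fL
  dL := G.dL
  Rd := N.Raw ⊕ G.Mv
  CB := G.CB
  self := .inl (.inr 0)
  ofN := .inl
  hw := G.hw
  xo := G.xo
  tt := G.tt
  DK := {u : N.F // u ≠ 0}
  fDK := inferInstance
  dRd u := .inl (.inl (.inl N.k0, (0, u)))
  dF y := decide (∑ u, b2 (y u) = 1)

/-- The data of an instance. -/
structure GInst {N : Code} (G : GSpec N) where
  I₀ : CInst N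
  mv : G.Mv → I₀.P × I₀.Z → I₀.P × I₀.Z
  cb : G.CB → I₀.P × I₀.Z → Bool
  sP : Fin 4 → I₀.P ≃ I₀.P
  sZ : Fin 4 → I₀.Z ≃ I₀.Z
  Bl : Type
  enc : Bl → G.L → I₀.P → Bool
  F : (G.K → Bl) → Bl
  /-- public bits and states of the inner code, for the input blocks `s` -/
  D : (G.K → Bl) → StD N I₀.Y I₀.E
  low : ∀ s st, I₀.IsWord ((D s).sec st)

variable {N : Code} {G : GSpec N} (J : GInst G)

/-- The inner code for the input blocks `s`. -/
def GInst.inC (s : G.K → J.Bl) : CInst N := wSt J.I₀ (J.D s)

/-- The inner local code for the input blocks `s`. -/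
noncomputable def GInst.inL (s : G.K → J.Bl) : LInst N.spec :=
  (J.inC s).toLInst J.sP J.sZ (J.low s)

/-- **The instance.** -/
noncomputable def ginst : FInst (gspec G) where
  P := J.I₀.P
  fP := inferInstance
  nP := ⟨(0, fun _ => 0)⟩
  Z := J.I₀.Z
  fZ := by classical exact inferInstance
  nZ := ⟨(fun _ => 0, fun _ _ _ => 0, fun _ => Classical.arbitrary _)⟩
  rd := Sum.elim J.I₀.rd J.mv
  cb := J.cb
  sP := J.sP
  sZ := J.sZ
  Bl := J.Bl
  enc := J.enc
  F := J.F
  Cf := {s : J.I₀.Y → J.I₀.E // J.I₀.IsWord s}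
  Valid s := (J.inL s).Valid
  w0 s := (J.inL s).w0
  step s := (J.inL s).step
  cod w _ p := N.bit p.2 (w.1 p.1)
  icb s := (J.inL s).cb

theorem upd_rd {N : LSpec} (L : LInst N) (rd : N.Rd → L.P × L.Z → L.P × L.Z) (h : rd = L.rd) :
    ({ L with rd := rd } : LInst N) = L := by
  subst h
  rfl

/-- **The inner local codes.** -/
theorem ginst_toL (s : G.K → J.Bl) : (ginst J).toL s = J.inL s :=
  upd_rd (J.inL s) J.I₀.rd (wSt_rd' J.I₀ (J.D s)).symm

end Vale.Agent.P330.H972
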