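import Vale.Agent.P330.H972.MOut
import Vale.Agent.P330.H972.GInst

/-!
# FUNC: the concrete functional system

`fspec`: the finite data of the functional system of the machine of a tableau `τ`; the definitions
`hw` (hard-wired bits from the streams), `xo` (output), `tt` (flag) are parameters (`FDefs`).
`finst`: the family of instances; `finst_toL`: the inner local codes are those of the machine.
-/

namespace Vale.Agent.P330.H972

open Finset Vale.Agent.Lib.PolyTime Vale.Agent.P330.Q Vale.Agent.P330.FM Vale.Agent.P330.FM.TM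
open Vale.Agent.P330.H800 (Tab)
open Vale.Agent.P330.H475 (Wd toWd)
open Vale.Agent.P330.S (BitDef b2)

section

variable {kk mm : ℕ} {τ : Tab kk} (C : XC (nCm τ) (nBm τ) mm)

/-- Names of the maps of the sites: raw reads, reads of the slots. -/
abbrev RdM (C : XC (nCm τ) (nBm τ) mm) : Type := (codeX C (spec τ)).Raw ⊕ Fin (nBm τ)

/-- The definitions of the hard-wired bits, of the output and of the flag. -/
structure FDefs (C : XC (nCm τ) (nBm τ) mm) where
  hw : (codeX C (spec τ)).V → BitDef (Fin kk × C.K) (RdM C) (PB C (spec τ))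
  xo : C.K → BitDef Unit (RdM C) (PB C (spec τ))
  tt : BitDef Unit (RdM C) (PB C (spec τ))

variable {C} (d : FDefs C)

/-- The finite data. -/
noncomputable def gsp : GSpec (codeX C (spec τ)) where
  K := Fin kk
  fK := inferInstance
  dK := inferInstance
  L := C.K
  fL := inferInstance
  dL := inferInstance
  Mv := Fin (nBm τ)
  CB := PB C (spec τ)
  hw := d.hw
  xo := d.xo
  tt := d.tt

/-- **The finite data of the functional system.** -/
noncomputable abbrev fspec : FSpec := gspec (gsp d)

variable (c : ℕ) {α : Type} [Enc α] {m : α → ℕ} (hm : PT ∅ m) (hb : PBd m) (a : α)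

/-- The data of the instance. -/
noncomputable def gin : GInst (gsp d) where
  I₀ := (mfam C c hm hb).sk a
  mv := (mfam C c hm hb).shS a
  cb v ω := (mmf C c hm hb).pb a v ω.1
  sP := ((mfam C c hm hb).nm a).sP ((mfam C c hm hb).nm_ok a)
  sZ := ((mfam C c hm hb).nm a).sZ ((mfam C c hm hb).nm_ok a)
  Bl := Wd (m a)
  enc b l p := encB C c hm hb a b l p
  F s := outW τ c s
  D s := (mfam C c hm hb).stD a (bitsB c s) (facts (good_aOf c (m a)) _)
  low s st := (mfam C c hm hb).lowK a (bitsB c s) (facts (good_aOf c (m a)) _) st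

/-- **The family of instances.** -/
noncomputable abbrev finst : FInst (fspec d) := ginst (gin d c hm hb a)

/-- **The inner local codes are those of the machine.** -/
theorem finst_toL (s : Fin kk → Wd (m a)) : (finst d c hm hb a).toL s =
    (mfam C c hm hb).inn a (bitsB c s) (facts (good_aOf c (m a)) _) :=
  ginst_toL (gin d c hm hb a) s

end

section

variable {kk mm : ℕ} {τ : Tab kk} {C : XC (nCm τ) (nBm τ) mm} (d : FDefs C)

/-- **The class of the instances**: all families, all arguments, all exponents. -/
def ClassF (I : FInst (fspec d)) : Prop :=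
  ∃ (c : ℕ) (α : Type) (_ : Enc α) (m : α → ℕ) (hm : PT ∅ m) (hb : PBd m) (a : α),
    I = finst d c hm hb a

theorem classF_mk (c : ℕ) {α : Type} [Enc α] {m : α → ℕ} (hm : PT ∅ m) (hb : PBd m) (a : α) :
    ClassF d (finst d c hm hb a) := ⟨c, α, _, m, hm, hb, a, rfl⟩

theorem innClass_le (L : LInst (fspec d).N) (hL : innClass (ClassF d) L) : ClassK C (spec τ) L := by
  obtain ⟨I, s, ⟨c, α, _, m, hm, hb, a, rfl⟩, rfl⟩ := hL
  exact (finst_toL d c hm hb a s) ▸ classK_mk _ _ _ _

end

end Vale.Agent.P330.H972
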