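import Vale.Agent.P330.H972.MFam
import Vale.Agent.P330.FM.MachSel

/-!
# FUNC: the function computed by the machine of the family

`bitsB c b`: the external bits of the blocks `b d`.  `outW τ c b`: the block computed by the machine
from the blocks `b d`.  `outW_eq`: it is the function `F` computed by the machine.
-/

namespace Vale.Agent.P330.H972

open Finset Vale.Agent.Lib.PolyTime Vale.Agent.P330.Q Vale.Agent.P330.FM Vale.Agent.P330.FM.TM
open Vale.Agent.Lib.PolyTime.ToTM2
open Vale.Agent.P330.H800 (Tab)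
open Vale.Agent.P330.H475 (Wd toWd)

theorem le_two_pow_aOf (c n : ℕ) : n ≤ 2 ^ (2 * aOf c n) := by
  have h1 := m_le_aOf c n
  have h2 : 2 ^ aOf c n ≤ 2 ^ (2 * aOf c n) := Nat.pow_le_pow_right (by norm_num) (by omega)
  omega

/-- The external bits of blocks. -/
def bitsB (c : ℕ) {n kk : ℕ} (b : Fin kk → Wd n) : Fin kk → ZMod (2 ^ (2 * aOf c n)) → Bool :=
  wbits (2 ^ (2 * aOf c n)) b

theorem bitsB_eq (c : ℕ) {n kk : ℕ} (b : Fin kk → Wd n) (d : Fin kk) :
    bitsB c b d = extB (b d) := rfl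

/-- The block computed by the machine. -/
def outW {kk : ℕ} (τ : Tab kk) (c : ℕ) {n : ℕ} (b : Fin kk → Wd n) : Wd n := fun i =>
  outv τ (prmOf (aOf c n) n) (bitsB c b) i

/-- The machine `τ` with the time bound `c` computes `F`. -/
def Computes {kk : ℕ} (τ : Tab kk) (c : ℕ) (F : List Word → Word) : Prop :=
  ∀ (P : Prm) (L : ℕ), Good P L → pb c P.m ≤ P.W → pb c P.m + 1 ≤ P.T →
    ∀ (s : Fin kk → ZMod L → Bool) (p : ℕ), p < P.m →
      outv τ P s p = ((F (List.ofFn (TM.wd P s)))[p]?).getD false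

theorem exists_computes {F : List Word → Word} (hF : PT ∅ F) (kk : ℕ) :
    ∃ (τ : Tab kk) (c : ℕ), Computes τ c F := exists_machine hF kk

/-- **The function of the machine.** -/
theorem outW_eq {kk : ℕ} {τ : Tab kk} {c : ℕ} {F : List Word → Word} (hF : Computes τ c F)
    {n : ℕ} (b : Fin kk → Wd n) : outW τ c b = toWd n (F (List.ofFn fun d => H475.wd (b d))) := by
  funext i
  unfold outW
  have h0 := pb_aOf c n
  rw [hF (prmOf (aOf c n) n) (2 ^ (2 * aOf c n)) (good_aOf c n)
    (by show pb c n ≤ 2 ^ aOf c n; omega) (by show pb c n + 1 ≤ 2 ^ aOf c n; omega) _ _ i.2]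
  have h1 : List.ofFn (TM.wd (prmOf (aOf c n) n) (bitsB c b)) =
      List.ofFn fun d => H475.wd (b d) := by
    congr 1
    funext d
    exact wd_wbits (prmOf (aOf c n) n) rfl (le_two_pow_aOf c n) b d
  rw [h1]
  unfold toWd
  rw [List.getD_eq_getElem?_getD]

/-- The output of the final configuration. -/
theorem fin_out_bitsB {kk : ℕ} (τ : Tab kk) (c : ℕ) {n : ℕ} (b : Fin kk → Wd n)
    (j : ZMod (2 ^ (2 * aOf c n))) :
    (TM.fin τ (prmOf (aOf c n) n) (2 ^ (2 * aOf c n)) (bitsB c b) j).out =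
      if j.val < n then some (extB (outW τ c b) j) else none := by
  rw [fin_out]
  by_cases h : j.val < n
  · rw [if_pos h, if_pos (show j.val < (prmOf (aOf c n) n).m from h), extB_of_lt _ h]
    rfl
  · rw [if_neg h, if_neg (show ¬ j.val < (prmOf (aOf c n) n).m from h)]

end Vale.Agent.P330.H972
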