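import Vale.Agent.P330.H972.XNumC

/-!
# FUNC: the local codes for all external bits over common points, pads and reads

`XFam.famK a s hI`: the local code for the external bits `s`; points, pads, reads are those of
`U.sk a` (definitionally); `famK_eq : famK = fam`.  `XFam.inn`: its instance of the network, with
the expanders of the numbers.  `ClassK`, `testSoundK`, `innFacts`.
-/

namespace Vale.Agent.P330.H972

open Finset Vale.Agent.Lib.PolyTime Vale.Agent.P330.Q Vale.Agent.P330.FM

/-- Public bits and states. -/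
structure StD (N : Code) (Y E : Type) where
  v : N.V → Y → E → Bool
  St : Type
  Val : St → Prop
  st0 : St
  step : Bool → St → St
  sec : St → Y → E

/-- The instance with other public bits and other states. -/
def wSt {N : Code} (I : CInst N) (D : StD N I.Y I.E) : CInst N :=
  { I with v := D.v, St := D.St, Val := D.Val, st0 := D.st0, step := D.step, sec := D.sec }

theorem wSt_rd {N : Code} (I : CInst N) (D : StD N I.Y I.E) (R : N.Raw) :
    (wSt I D).rd R = I.rd R := by
  rcases R with ⟨k, p⟩ | u <;> rfl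

theorem wSt_rd' {N : Code} (I : CInst N) (D : StD N I.Y I.E) : (wSt I D).rd = I.rd :=
  funext (wSt_rd I D)

theorem upd_gA {N : Code} (I : CInst N) (g : N.K ⊕ N.KT → I.Y ≃ I.Y)
    (A : N.K ⊕ N.KT → I.Y → I.E → I.E) (hg : g = I.g) (hA : A = I.A) (p1) (p2) (p3) (p4) :
    ({ I with g := g, A := A, g_k0 := p1, g_kt0 := p2, A_k0 := p3, A_kt0 := p4 } : CInst N) = I := by
  subst hg hA
  rfl

namespace XFam

variable {nC B m : ℕ} {C : XC nC B m} {S : XSpec} {α : Type} [Enc α] (U : XFam C S α)
  (a : α) (s : S.Ext → (U.I a).J → Bool) (hI : (U.I a).Facts s)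

/-- Public bits and states for the external bits `s`. -/
noncomputable def stD : StD (codeX C S) (U.sk a).Y (U.sk a).E where
  v := (U.fam a s hI).v
  St := (U.fam a s hI).St
  Val := (U.fam a s hI).Val
  st0 := (U.fam a s hI).st0
  step := (U.fam a s hI).step
  sec := (U.fam a s hI).sec

/-- The local code for the external bits `s`, over the common points. -/
noncomputable def famK : CInst (codeX C S) := wSt (U.sk a) (U.stD a s hI)

theorem sk_g : (U.sk a).g = (U.fam a s hI).g := by
  funext k
  rcases k with (_ | κ) | (_ | κ)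
  · rfl
  · cases κ <;> rfl
  · rfl
  · obtain ⟨⟨f, mv⟩, l⟩ := κ
    cases mv with
    | th σ => cases σ <;> rfl
    | tr σ t => cases σ <;> rfl
    | _ => rfl

theorem sk_A : (U.sk a).A = (U.fam a s hI).A := by
  funext k y c
  rcases k with (_ | κ) | (_ | κ) <;> rfl

/-- **The local code.** -/
theorem famK_eq : U.famK a s hI = U.fam a s hI :=
  upd_gA (U.fam a s hI) (U.sk a).g (U.sk a).A (U.sk_g a s hI) (U.sk_A a s hI)
    (U.sk a).g_k0 (U.sk a).g_kt0 (U.sk a).A_k0 (U.sk a).A_kt0

theorem famK_rd (R : (codeX C S).Raw) : (U.famK a s hI).rd R = (U.sk a).rd R := wSt_rd _ _ R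

/-! ### Facts -/

theorem factsK : (U.famK a s hI).CFacts C.lam := by
  rw [famK_eq]
  exact factsX C (U.I a) U.σ (U.ε a) s hI

theorem idSoundK : (U.famK a s hI).IdSound (κX C S) (1 / 4) := by
  rw [famK_eq]
  exact idSoundX C (U.I a) U.σ (U.ε a) s hI

theorem lowK (st : (U.famK a s hI).St) : (U.famK a s hI).IsWord ((U.famK a s hI).sec st) :=
  (U.factsK a s hI).low st

/-- The inner local code, with the expanders of the numbers. -/
noncomputable def inn : LInst (codeX C S).spec :=
  (U.famK a s hI).toLInst ((U.nm a).sP (U.nm_ok a)) ((U.nm a).sZ (U.nm_ok a)) (U.lowK a s hI)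

theorem gap_sP : H855.Gap ((U.nm a).sP (U.nm_ok a)) (73 / 80) := (U.nm a).gap_sP (U.nm_ok a)

theorem gap_sZ [Fintype (U.sk a).Z] : H855.Gap ((U.nm a).sZ (U.nm_ok a)) (73 / 80) :=
  (U.nm a).gap_sZ (U.nm_ok a)

/-- **The facts of the inner local code.** -/
theorem innFacts (hC : Fintype.card S.Cell = nC) :
    (U.inn a s hI).Facts (1 / 4) (ρX C S) (73 / 80) := by
  refine (U.famK a s hI).facts (U.factsK a s hI) (lam_pos C).le _ _ (U.gap_sP a) (U.gap_sZ a) ?_
    (sound_radiusX C S).choose_spec.2.2 ?_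
  · exact C.P.hlam (F := C.K) (Cell := S.Cell) C.card_K hC
  · exact C.P.htheta (F := C.K) C.card_K

end XFam

/-- The class of the inner local codes. -/
def ClassK {nC B m : ℕ} (C : XC nC B m) (S : XSpec) (L : LInst (codeX C S).spec) : Prop :=
  ∃ (α : Type) (_ : Enc α) (U : XFam C S α) (a : α) (s : S.Ext → (U.I a).J → Bool)
    (hI : (U.I a).Facts s), L = U.inn a s hI

theorem classK_mk {nC B m : ℕ} {C : XC nC B m} {S : XSpec} {α : Type} [Enc α] (U : XFam C S α)
    (a : α) (s : S.Ext → (U.I a).J → Bool) (hI : (U.I a).Facts s) :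
    ClassK C S (U.inn a s hI) := ⟨α, _, U, a, s, hI, rfl⟩

/-- **Soundness of the test.** -/
theorem testSoundK {nC B m : ℕ} (C : XC nC B m) (S : XSpec) :
    TestSound (codeX C S).spec (ClassK C S) := by
  refine testSound (lam := C.lam) (κ := κX C S) (τ := 1 / 4) ?_ (κX_pos C) (by norm_num) _ ?_
  · rw [card_codeX]
    exact C.P.q_mul_lam
  · rintro L ⟨α, _, U, a, s, hI, rfl⟩
    exact ⟨U.famK a s hI, _, _, U.factsK a s hI, U.idSoundK a s hI, rfl⟩

theorem factsClassK {nC B m : ℕ} (C : XC nC B m) {S : XSpec} (hC : Fintype.card S.Cell = nC)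
    (L : LInst (codeX C S).spec) (hL : ClassK C S L) : L.Facts (1 / 4) (ρX C S) (73 / 80) := by
  obtain ⟨α, _, U, a, s, hI, rfl⟩ := hL
  exact U.innFacts a s hI hC

/-- **Soundness of the network.** -/
theorem lsoundK {nC B m : ℕ} (C : XC nC B m) {S : XSpec} (hC : Fintype.card S.Cell = nC) :
    LSound (codeX C S).spec (ClassK C S) :=
  lsound (θ := 1 / 4) (ρ₁ := ρX C S) (g := 73 / 80) (by norm_num) (ρX_pos C) (by norm_num)
    (factsClassK C hC) (testSoundK C S)

end Vale.Agent.P330.H972
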