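import Vale.Agent.P330.Q.NumTest
import Vale.Agent.P330.Q.NumMv
import Vale.Agent.P330.Q.SitesPT
import Vale.Agent.P330.Q.SitesDir
import Vale.Agent.P330.Q.Inst
import Vale.Agent.P330.Q.TestF2
import Vale.Agent.P330.Q.YSys
import Vale.Agent.P330.Q.Search

/-!
# FUNC: the numbers of the sites of a family of local codes (generic form of `Q/SitesInst`)

`XD`: a family of domains over `YY K (h a)`, indexed by `a : α`, with the digits of the pair of
words that defines the directions.  `XD.skel`: the instance of the code without its public bits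
(points, directions, components, moves and functionals do not depend on the kernels).
`XD.num : CNum (skel a)`, `XD.num_ok`, `XD.num_pt`.
-/

namespace Vale.Agent.P330.H972

open Finset Vale.Agent.Lib.PolyTime Vale.Agent.P330.Q Vale.Agent.P330.Q.Srch

/-- A family of domains, with everything that is needed for the numbers of the sites. -/
structure XD (α : Type) [Enc α] (K : Type) [Field K] [CharP K 2] [Fintype K] (Cell V : Type)
    [Fintype Cell] [DecidableEq Cell] (B : ℕ) where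
  /-- length of the cube -/
  h : α → ℕ
  hne : ∀ a, NeZero (h a)
  /-- number of address bits -/
  k : α → ℕ
  /-- configurations -/
  X : α → Type
  M : ∀ a, Dom K (h a) B (YY K (h a)) Cell V (X a)
  std : ∀ a, StdDom (M a).toDomData (k a)
  /-- the pair of words of the directions, and its digits -/
  al : ∀ a, ZMod (h a) → K
  be : ∀ a, ZMod (h a) → K
  alN : α → ℕ → K
  beN : α → ℕ → K
  al_ok : ∀ a, IsNatOf (alN a) (al a)
  be_ok : ∀ a, IsNatOf (beN a) (be a)
  /-- number of axes in a direction -/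
  t : ℕ
  dne : ∀ a, Nonempty (DIx (qax (piY (al a) (be a))) t)
  PT_h : PT ∅ h
  PB_h : PBd (fun a => 2 ^ h a)
  PT_k : PT ∅ k
  PT_al : PTz ∅ h alN
  PT_be : PTz ∅ h beN

attribute [instance] XD.hne XD.dne

section

variable {α : Type} [Enc α] {K : Type} [Field K] [CharP K 2] [Fintype K] [DecidableEq K]
  [DecidableEq (CK K)]
  {Cell V : Type} [Fintype Cell] [DecidableEq Cell] [Fintype V] [DecidableEq V] {B : ℕ}
  (φ : K →+ ZMod 2) (hφ : φ ≠ 0) (D : ℕ) (hD : Fintype.card K ≤ 2 * D + 1)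
  (hD2 : D + 2 ≤ Fintype.card K)

/-- The finite data of the code. -/
noncomputable abbrev codeG (Cell V : Type) [Fintype Cell] [DecidableEq Cell] [Fintype V]
    [DecidableEq V] (B : ℕ) (φ : K →+ ZMod 2) (hφ : φ ≠ 0) (D : ℕ)
    (hD : Fintype.card K ≤ 2 * D + 1) (hD2 : D + 2 ≤ Fintype.card K) : Code :=
  mkCode Cell V B φ hφ D hD hD2 (tHalf Cell V (TY K) B φ)

variable (S : XD α K Cell V B)

namespace XD

/-- The translations of the digit `0`. -/
noncomputable def dg (a : α) (x : TY K) : YY K (S.h a) := Pi.single 0 x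

/-- The directions. -/
noncomputable def dir (a : α) : DIx (qax (piY (S.al a) (S.be a))) S.t → K →+ YY K (S.h a) :=
  idir (qax (piY (S.al a) (S.be a))) S.t

/-- The instance without public bits. -/
noncomputable def skel (a : α) : CInst (codeG Cell V B φ hφ D hD hD2) :=
  { mkInst (S.M a) 1 (tInst (S.M a).toDomData (S.dg a) φ) (pdir (S.dir a) (S.dir a))
      (fun y => YY_add_self y) with
    v := fun _ _ _ => false }

/-- The number of directions. -/
noncomputable def nDi (a : α) : ℕ := nD (S.h a) (S.alN a) (S.beN a) S.t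

/-- The moves. -/
noncomputable def gN (a : α) : (codeG Cell V B φ hφ D hD hD2).K ⊕
    (codeG Cell V B φ hφ D hD hD2).KT → ℕ → ℕ
  | .inl none, x => x
  | .inl (some κ), x => akN K (S.h a) (S.k a) κ x
  | .inr none, x => x
  | .inr (some κ), x => mvN K (S.h a) (S.k a) κ.1.2 x

/-- The functional of a number. -/
noncomputable def dC (a : α) (c : ℕ) : Comp Cell V (S.h a) → K := decC (S.h a) c

/-- The functional maps. -/
noncomputable def AN (a : α) : (codeG Cell V B φ hφ D hD hD2).K ⊕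
    (codeG Cell V B φ hφ D hD hD2).KT → ℕ → ℕ → ℕ → K
  | .inl none, _, c, j => S.dC a c (decK (S.h a) j)
  | .inl (some κ), _, c, j => κ.fn (1 : K) (S.dC a c) (decK (S.h a) j)
  | .inr none, _, c, j => S.dC a c (decK (S.h a) j)
  | .inr (some κ), _, c, j => (κ.2 • fn (S.dC a c) κ.1.1) (decK (S.h a) j)

/-- **The numbers of the points, components and directions.** `r ^ 2` is the number of elements of
the field. -/
noncomputable def num (r : ℕ) (a : α) : CNum (S.skel φ hφ D hD hD2 a) where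
  nY := cY K (S.h a) * cY K (S.h a)
  eY := eYY K (S.h a)
  nR := nC Cell V (S.h a)
  eR := compE (S.h a)
  nι := S.nDi a * S.nDi a
  eι := eDD (S.al_ok a) (S.be_ok a) S.t
  addN := addP K (S.h a)
  gN := S.gN φ hφ D hD hD2 a
  dN u i := dirN2 (S.h a) (S.alN a) (S.beN a) S.t i u
  AN := S.AN φ hφ D hD hD2 a
  vN _ _ _ := false
  mP := cY K (S.h a) * r ^ nC Cell V (S.h a)
  mZ := r ^ (CNum.M (codeG Cell V B φ hφ D hD hD2) * nC Cell V (S.h a)) * (S.nDi a * S.nDi a)

/-! ### Correctness -/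

variable {φ hφ D hD hD2 S}

theorem dC_cE (r : ℕ) (a : α) (c : Comp Cell V (S.h a) → K) :
    S.dC a ((S.num φ hφ D hD hD2 r a).cE c) = c := by
  funext k
  exact (S.num φ hφ D hD hD2 r a).dg_cE c k

theorem gN_ok (a : α) (κ : (codeG Cell V B φ hφ D hD hD2).K ⊕
    (codeG Cell V B φ hφ D hD hD2).KT) (y : YY K (S.h a) × YY K (S.h a)) :
    S.gN φ hφ D hD hD2 a κ (eYY K (S.h a) y) =
      eYY K (S.h a) ((S.skel φ hφ D hD hD2 a).g κ y) := by
  rcases κ with (_ | κ) | (_ | κ)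
  · rfl
  · exact ((S.std a).akN κ y).symm
  · rfl
  · exact ((S.std a).mvN κ.1.2 y).symm

theorem AN_ok (r : ℕ) (a : α) (κ : (codeG Cell V B φ hφ D hD hD2).K ⊕
    (codeG Cell V B φ hφ D hD hD2).KT) (y : YY K (S.h a) × YY K (S.h a))
    (c : Comp Cell V (S.h a) → K) (j : Comp Cell V (S.h a)) :
    S.AN φ hφ D hD hD2 a κ (eYY K (S.h a) y) ((S.num φ hφ D hD hD2 r a).cE c)
      (compE (S.h a) j) = (S.skel φ hφ D hD hD2 a).A κ y c j := by
  rcases κ with (_ | κ) | (_ | κ)
  · show S.dC a ((S.num φ hφ D hD hD2 r a).cE c) (decK (S.h a) (compE (S.h a) j)) = c j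
    rw [dC_cE, decK_compE]
  · show κ.fn (1 : K) (S.dC a ((S.num φ hφ D hD hD2 r a).cE c))
      (decK (S.h a) (compE (S.h a) j)) = κ.fn (1 : K) c j
    rw [dC_cE, decK_compE]
  · show S.dC a ((S.num φ hφ D hD hD2 r a).cE c) (decK (S.h a) (compE (S.h a) j)) = c j
    rw [dC_cE, decK_compE]
  · show (κ.2 • fn (S.dC a ((S.num φ hφ D hD hD2 r a).cE c)) κ.1.1)
      (decK (S.h a) (compE (S.h a) j)) = (κ.2 • fn c κ.1.1) j
    rw [dC_cE, decK_compE]

/-- **The numbers are correct.** -/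
theorem num_ok {r : ℕ} (hr : r * r = Fintype.card K) (a : α) :
    (S.num φ hφ D hD hD2 r a).Ok where
  add_ok y y' := (eYY_add (K := K) (h := S.h a) y y').symm
  g_ok := gN_ok a
  d_ok u i := dirN2_eDD (S.al_ok a) (S.be_ok a) S.t i u
  A_ok κ y c j := AN_ok r a κ y c j
  v_ok _ _ _ := rfl
  P_sq := by
    show cY K (S.h a) * cY K (S.h a) * Fintype.card K ^ _ = _
    rw [← hr, mul_pow]
    show _ = cY K (S.h a) * r ^ nC Cell V (S.h a) * (cY K (S.h a) * r ^ nC Cell V (S.h a))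
    exact mul_mul_mul_comm _ _ _ _
  Z_sq := by
    show Fintype.card K ^ (CNum.M (codeG Cell V B φ hφ D hD hD2) * nC Cell V (S.h a)) *
      (S.nDi a * S.nDi a * (S.nDi a * S.nDi a)) = _
    rw [← hr, mul_pow]
    show _ = r ^ (CNum.M (codeG Cell V B φ hφ D hD hD2) * nC Cell V (S.h a)) *
        (S.nDi a * S.nDi a) *
      (r ^ (CNum.M (codeG Cell V B φ hφ D hD hD2) * nC Cell V (S.h a)) * (S.nDi a * S.nDi a))
    exact mul_mul_mul_comm _ _ _ _

/-! ### Polynomial time -/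

variable (S)

omit [DecidableEq K] [DecidableEq (CK K)] [Fintype V] [DecidableEq V] in
theorem PB_h' : PBd S.h := S.PB_h.mono fun _ => Nat.lt_two_pow_self.le

omit [DecidableEq K] [DecidableEq (CK K)] [Fintype V] [DecidableEq V] in
theorem PT_nDi : PT ∅ S.nDi := PT.nD S.PT_h S.PB_h' S.PT_al S.PT_be S.t

omit [DecidableEq K] [DecidableEq (CK K)] [Fintype V] [DecidableEq V] in
theorem PBd_nDi : PBd S.nDi := PBd.nD S.alN S.beN S.PB_h' S.t

omit [DecidableEq K] [DecidableEq (CK K)] [DecidableEq V] in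
theorem PT_nR : PT ∅ (fun a => nC Cell V (S.h a)) :=
  PT.add (PT.const _) (PT.mul (PT.add S.PT_h (PT.const 1)) (PT.const _))

omit [DecidableEq K] [DecidableEq (CK K)] [DecidableEq V] in
theorem PBd_two_pow_nR : PBd (fun a => 2 ^ nC Cell V (S.h a)) := by
  refine ((PBd.const (2 ^ (Fintype.card (CLo Cell) +
    Fintype.card (CHi Cell V)))).mul
      (S.PB_h.pow (Fintype.card (CHi Cell V)))).mono fun a => ?_
  unfold nC
  rw [← pow_mul, ← pow_add]
  exact le_of_eq (by congr 1; ring)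

omit [DecidableEq K] [DecidableEq (CK K)] [DecidableEq V] in
theorem PBd_nR : PBd (fun a => nC Cell V (S.h a)) :=
  of_pow S.PBd_two_pow_nR

variable {β : Type} [Enc β] {f : β → α}

omit [DecidableEq (CK K)] in
theorem PT_gN (κ : (codeG Cell V B φ hφ D hD hD2).K ⊕ (codeG Cell V B φ hφ D hD hD2).KT)
    {x : β → ℕ} (hf : PT ∅ f) (hx : PT ∅ x) :
    PT ∅ (fun b => S.gN φ hφ D hD hD2 (f b) κ (x b)) := by
  have hh : PT ∅ (fun b => S.h (f b)) := S.PT_h.comp hf
  have hhb : PBd (fun b => S.h (f b)) := S.PB_h'.comp hf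
  rcases κ with (_ | κ) | (_ | κ)
  · exact hx
  · exact PT.akN K (h := fun b => S.h (f b)) (k := fun b => S.k (f b)) hh hhb (S.PT_k.comp hf)
      hx κ
  · exact hx
  · exact PT.mvN (K := K) (h := fun b => S.h (f b)) (k := fun b => S.k (f b)) hh hhb
      (S.PT_k.comp hf) hx κ.1.2

omit [DecidableEq (CK K)] in
theorem PTt_AN (κ : (codeG Cell V B φ hφ D hD hD2).K ⊕ (codeG Cell V B φ hφ D hD hD2).KT)
    {y c j : β → ℕ} (hf : PT ∅ f) (hc : PT ∅ c) (hj : PT ∅ j) :
    PTt ∅ (fun b => S.AN φ hφ D hD hD2 (f b) κ (y b) (c b) (j b)) := by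
  have hh : PT ∅ (fun b => S.h (f b)) := S.PT_h.comp hf
  have hhb : PBd (fun b => S.h (f b)) := S.PB_h'.comp hf
  have h0 : PTt ∅ (fun b => (decC (S.h (f b)) (c b)
      (decK (S.h (f b)) (j b) : Comp Cell V (S.h (f b))) : K)) :=
    PTt.tfn (F := K) (h := fun b => S.h (f b)) hh hhb hc hj .all
  rcases κ with (_ | κ) | (_ | κ)
  · exact h0
  · exact PTt.akfn (F := K) (V := V) (h := fun b => S.h (f b)) hh hhb hc hj 1 κ
  · exact h0
  · exact PTt.tfn_smul (F := K) (h := fun b => S.h (f b)) hh hhb hc hj κ.1.1 κ.2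

/-- **The numbers are computable in polynomial time.** -/
theorem num_pt (r : ℕ) : CNum.OkPT ∅ (S.num φ hφ D hD hD2 r) where
  nY := PT.mul (PT.cY K S.PT_h S.PB_h') (PT.cY K S.PT_h S.PB_h')
  nYb := PBd.mul (PBd.cY K S.PB_h) (PBd.cY K S.PB_h)
  nR := S.PT_nR
  Qcb := powT S.PBd_two_pow_nR _
  nι := PT.mul S.PT_nDi S.PT_nDi
  nιb := PBd.mul S.PBd_nDi S.PBd_nDi
  mP := PT.mul (PT.cY K S.PT_h S.PB_h') (PT.pow (PT.const _) S.PT_nR S.PBd_nR)
  mZ := PT.mul (PT.pow (PT.const _) (PT.mul (PT.const _) S.PT_nR)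
    (PBd.mul (PBd.const _) S.PBd_nR)) (PT.mul S.PT_nDi S.PT_nDi)
  add := by
    have h1 : PT ∅ (fun p : α × ℕ × ℕ => S.h p.1) := S.PT_h.comp PT.fst'
    have h2 : PBd (fun p : α × ℕ × ℕ => S.h p.1) := S.PB_h'.comp (PT.fst' (A := ∅))
    have h3 : PT ∅ (fun p : α × ℕ × ℕ => cY K (S.h p.1) * cY K (S.h p.1)) :=
      PT.mul (PT.cY K h1 h2) (PT.cY K h1 h2)
    exact PT.addP K (h := fun p : α × ℕ × ℕ => S.h p.1) h1 h2
      (PT.min PT.snd'.fst h3) (PT.min PT.snd'.snd h3)
  g κ := by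
    have h1 : PT ∅ (fun p : α × ℕ => S.h p.1) := S.PT_h.comp PT.fst'
    have h2 : PBd (fun p : α × ℕ => S.h p.1) := S.PB_h'.comp (PT.fst' (A := ∅))
    have h3 : PT ∅ (fun p : α × ℕ => cY K (S.h p.1) * cY K (S.h p.1)) :=
      PT.mul (PT.cY K h1 h2) (PT.cY K h1 h2)
    exact S.PT_gN κ PT.fst' (PT.min PT.snd' h3)
  d u := by
    have h3 : PT ∅ (fun p : α × ℕ => S.nDi p.1 * S.nDi p.1) :=
      PT.mul (S.PT_nDi.comp PT.fst') (S.PT_nDi.comp PT.fst')
    exact PT.dirN2 (h := fun a : α => S.h a) (x := fun p : α × ℕ => p.1)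
      (u := fun _ : α × ℕ => (u : K))
      S.PT_h S.PB_h' S.PT_al S.PT_be S.t PT.fst' (PT.min PT.snd' h3) (PTt.const (u : K))
  Af κ := by
    have h3 : PT ∅ (fun p : α × ℕ × ℕ × ℕ => nC Cell V (S.h p.1)) :=
      S.PT_nR.comp PT.fst'
    have h4 : PBd (fun p : α × ℕ × ℕ × ℕ => nC Cell V (S.h p.1)) :=
      S.PBd_nR.comp (PT.fst' (A := ∅))
    exact S.PTt_AN κ PT.fst' (PT.min PT.snd'.snd.fst (PT.pow (PT.const _) h3 h4))
      (PT.min PT.snd'.snd.snd h3)
  v _ := PT.const false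

end XD

end

end Vale.Agent.P330.H972
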