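import Vale.Agent.P330.Q.SitesPT

/-!
# FUNC: further maps of the sites on numbers

For an instance `I : CInst N` with numbers `n : CNum I`:
* `rdX`: the raw read of a corrected read with an arbitrary move `g` of the points and an
  arbitrary map `A` of the functionals; `rdXN` on numbers.
* `mvS`: the map of sites which moves the point and keeps everything else; `mvSN` on numbers.
-/

namespace Vale.Agent.P330.H972

open Finset Vale.Agent.Lib.PolyTime Vale.Agent.P330.Q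
open Vale.Agent.P318.S (crv Low sgn ind CharBd fdist word crv_cons)
open scoped BigOperators

variable {N : Code}

/-- The raw read of the corrected read with the move `g` and the functional map `A`. -/
def rdX (I : CInst N) (g : I.Y → I.Y) (A : I.Y → I.E → I.E) (p : N.U) :
    I.P × I.Z → I.P × I.Z
  | ((y, c), (c₂, C, i)) => (rdPos I.r (g y) (A y c) i C c₂ p, (c, C, i))

theorem rd_eq_rdX (I : CInst N) (k : N.K ⊕ N.KT) (p : N.U) (ω : I.P × I.Z) :
    I.rd (.inl (k, p)) ω = rdX I (I.g k) (I.A k) p ω := rfl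

/-- Move of the point. -/
def mvS (I : CInst N) (g : I.Y → I.Y) : I.P × I.Z → I.P × I.Z
  | ((y, c), z) => ((g y, c), z)

/-- Move of the point and of the functional. -/
def mvT (I : CInst N) (g : I.Y → I.Y) (A : I.Y → I.E → I.E) : I.P × I.Z → I.P × I.Z
  | ((y, c), z) => ((g y, A y c), z)

section num

variable {I : CInst N} (n : CNum I)

/-- The raw read on numbers; `gN`: number of the moved point, `AN`: components of the functional
(number of the point, number of the functional, number of the component). -/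
noncomputable def rdXN (gN : ℕ → ℕ) (AN : ℕ → ℕ → ℕ → N.F) (p : N.U) (s : ℕ) : ℕ :=
  n.asm (n.addN (min (gN (n.yN s)) n.nY) (min (n.dN p.2 (n.iN s p.1)) n.nY))
    (fnum n.nR fun j => (if p.1 = 0 then AN (n.yN s) (n.cN s) j else 0) +
      n.c2N (n.eN s) j + n.crvN p.1 p.2 (n.eN s) j)
    (fnum (CNum.M N * n.nR) fun t => if t / n.nR = CNum.mIx N none then
      dgT N.F (n.cN s) (t % n.nR) else dgT N.F (n.eN s) t)
    (s % n.NZ % (n.nι * n.nι))

/-- Move of the point, on numbers. -/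
noncomputable def mvSN (gN : ℕ → ℕ) (s : ℕ) : ℕ :=
  (min (gN (n.yN s)) n.nY * n.Qc + n.cN s) * n.NZ + s % n.NZ

/-- Move of the point and of the functional, on numbers. -/
noncomputable def mvTN (gN : ℕ → ℕ) (AN : ℕ → ℕ → ℕ → N.F) (s : ℕ) : ℕ :=
  (min (gN (n.yN s)) n.nY * n.Qc + fnum n.nR fun j => AN (n.yN s) (n.cN s) j) * n.NZ + s % n.NZ

variable {n}

theorem rdXN_num (h : n.Ok) {g : I.Y → I.Y} {A : I.Y → I.E → I.E} {gN : ℕ → ℕ}
    {AN : ℕ → ℕ → ℕ → N.F} (hg : ∀ y, gN (n.eY y) = n.eY (g y))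
    (hA : ∀ y c j, AN (n.eY y) (n.cE c) (n.eR j) = A y c j) (p : N.U) (ω : I.P × I.Z) :
    rdXN n gN AN p (n.num ω) = n.num (rdX I g A p ω) := by
  obtain ⟨⟨y, c⟩, c2, C, i⟩ := ω
  have hy := n.yN_num ((y, c), (c2, C, i))
  have hc := n.cN_num ((y, c), (c2, C, i))
  have he := n.eN_num ((y, c), (c2, C, i))
  have hi := n.iN_num ((y, c), (c2, C, i))
  have hii := n.ii_num ((y, c), (c2, C, i))
  dsimp only at hy hc he hi hii
  show n.asm _ _ _ _ = _
  rw [hy, hc, he, hi, hii, hg, min_eq_left (n.eY _).2.le, h.d_ok,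
    min_eq_left (n.eY _).2.le, h.add_ok]
  have h1 : fnum n.nR (fun j => (if p.1 = 0 then AN (n.eY y) (n.cE c) j else 0) +
      n.c2N (n.padE (c2, C)) j + n.crvN p.1 p.2 (n.padE (c2, C)) j) =
      (n.cE (rdPos I.r (g y) (A y c) i C c2 p).2 : ℕ) := by
    refine n.cE_of _ _ fun j => ?_
    rw [n.c2N_eq, n.crvN_eq, rdPos]
    dsimp only
    rw [crv_cons, Pi.add_apply]
    congr 1
    split_ifs
    · rw [hA, Pi.add_apply]
    · rw [zero_add]
  have h2 : fnum (CNum.M N * n.nR) (fun t => if t / n.nR = CNum.mIx N none then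
      dgT N.F (n.cE c) (t % n.nR) else dgT N.F (n.padE (c2, C)) t) =
      (n.padE (c, C) : ℕ) := by
    refine n.padE_of _ _ fun o j => ?_
    have h3 : 0 < n.nR := lt_of_le_of_lt (Nat.zero_le _) (n.eR j).2
    have h4 : ((n.eR j : ℕ) + n.nR * CNum.mIx N o) / n.nR = CNum.mIx N o := by
      rw [Nat.add_mul_div_left _ _ h3, Nat.div_eq_of_lt (n.eR j).2, zero_add]
    have h5 : ((n.eR j : ℕ) + n.nR * CNum.mIx N o) % n.nR = n.eR j := by
      rw [Nat.add_mul_mod_self_left, Nat.mod_eq_of_lt (n.eR j).2]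
    rw [h4, h5]
    rcases o with _ | ⟨b, k⟩
    · rw [if_pos rfl, n.dg_cE]
      rfl
    · rw [if_neg, n.dg_padE]
      · rfl
      · intro h6
        have h7 := (CNum.mIx N).injective (Fin.ext h6)
        exact absurd h7 (by simp)
  rw [h1, h2]
  exact n.num_asm _ _ _ _ _

theorem mvSN_num {g : I.Y → I.Y} {gN : ℕ → ℕ} (hg : ∀ y, gN (n.eY y) = n.eY (g y))
    (ω : I.P × I.Z) : mvSN n gN (n.num ω) = n.num (mvS I g ω) := by
  obtain ⟨⟨y, c⟩, z⟩ := ω
  have hy := n.yN_num ((y, c), z)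
  have hc := n.cN_num ((y, c), z)
  have hm := n.num_mod ((y, c), z)
  dsimp only at hy hc hm
  show (_ * n.Qc + _) * n.NZ + _ = n.eP (g y, c) * n.NZ + n.eZ z
  rw [hy, hc, hm, hg, min_eq_left (n.eY _).2.le, n.eP_val]

theorem mvTN_num {g : I.Y → I.Y} {A : I.Y → I.E → I.E} {gN : ℕ → ℕ}
    {AN : ℕ → ℕ → ℕ → N.F} (hg : ∀ y, gN (n.eY y) = n.eY (g y))
    (hA : ∀ y c j, AN (n.eY y) (n.cE c) (n.eR j) = A y c j) (ω : I.P × I.Z) :
    mvTN n gN AN (n.num ω) = n.num (mvT I g A ω) := by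
  obtain ⟨⟨y, c⟩, z⟩ := ω
  have hy := n.yN_num ((y, c), z)
  have hc := n.cN_num ((y, c), z)
  have hm := n.num_mod ((y, c), z)
  dsimp only at hy hc hm
  show (_ * n.Qc + _) * n.NZ + _ = n.eP (g y, A y c) * n.NZ + n.eZ z
  rw [hy, hc, hm, hg, min_eq_left (n.eY _).2.le, n.eP_val,
    n.cE_of (A y c) _ fun j => hA y c j]

end num

/-! ### Polynomial time -/

section pt

variable {A : Set Word} {α : Type*} [Enc α] {I : α → CInst N} {n : ∀ a, CNum (I a)}

theorem PT_rdXN (h : CNum.OkPT A n) {gN : α → ℕ → ℕ} {AN : α → ℕ → ℕ → ℕ → N.F}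
    (hg : PT A (fun p : α × ℕ => gN p.1 (min p.2 (n p.1).nY)))
    (hA : PTt A (fun p : α × ℕ × ℕ × ℕ =>
      AN p.1 (min p.2.1 (n p.1).nY) (min p.2.2.1 (n p.1).Qc) (min p.2.2.2 (n p.1).nR)))
    (p : N.U) {s : α → ℕ} (hs : PT A s) :
    PT A (fun a => rdXN (n a) (gN a) (AN a) p (s a)) := by
  have hj : PT A (fun q : α × ℕ => min q.2 (n q.1).nR) := PT.min PT.snd' (h.nR.comp PT.fst')
  have hjb : PBd (fun q : α × ℕ => min q.2 (n q.1).nR) := CNum.OkPT.minb h.nRb
  have hs' : PT A (fun q : α × ℕ => s q.1) := hs.comp PT.fst'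
  have h1 : CNum.OkPT A (I := fun q : α × ℕ => I q.1) (fun q : α × ℕ => n q.1) :=
    h.comp' PT.fst'
  have hy := h1.yN hs'
  have hc := h1.cN hs'
  have he := h1.eN hs'
  have hgy : PT A (fun a => gN a ((n a).yN (s a))) :=
    (PT.comp (g := fun p : α × ℕ => gN p.1 (min p.2 (n p.1).nY)) hg
      (PT.id.pair (h.yN hs))).congr fun a => by
        rw [min_eq_left]
        exact min_le_right _ _
  refine h.asm (h.addm hgy (h.di p.2 hs p.1)) (PT.fnum h.nR h.nRb ?_)
    (PT.fnum (PT.mul (PT.const (CNum.M N)) h.nR) (PBd.mul (PBd.const (CNum.M N)) h.nRb) ?_)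
    (h.ii hs)
  · have hA' : PTt A (fun q : α × ℕ =>
        AN q.1 ((n q.1).yN (s q.1)) ((n q.1).cN (s q.1)) (min q.2 (n q.1).nR)) := by
      refine (PTt.comp (f := fun p : α × ℕ × ℕ × ℕ => AN p.1 (min p.2.1 (n p.1).nY)
        (min p.2.2.1 (n p.1).Qc) (min p.2.2.2 (n p.1).nR)) hA
        (PT.fst'.pair (hy.pair (hc.pair PT.snd')))).congr fun q => ?_
      rw [min_eq_left (a := (n q.1).yN (s q.1)) (min_le_right _ _),
        min_eq_left (a := (n q.1).cN (s q.1)) (min_le_right _ _)]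
    have h2 : PTt A (fun q : α × ℕ =>
        if p.1 = 0 then AN q.1 ((n q.1).yN (s q.1)) ((n q.1).cN (s q.1))
          (min q.2 (n q.1).nR) else 0) := by
      split_ifs
      · exact hA'
      · exact PTt.const 0
    exact (h2.map₂ (h1.c2N he hj hjb) fun x y => x + y).map₂ (h1.crvN p.1 p.2 he hj hjb)
      fun x y => x + y
  · have ht : PT A (fun q : α × ℕ => min q.2 (CNum.M N * (n q.1).nR)) :=
      PT.min PT.snd' (PT.mul (PT.const (CNum.M N)) (h.nR.comp PT.fst'))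
    have htb : PBd (fun q : α × ℕ => min q.2 (CNum.M N * (n q.1).nR)) :=
      CNum.OkPT.minb (m := fun a => CNum.M N * (n a).nR) (PBd.mul (PBd.const (CNum.M N)) h.nRb)
    refine PTt.ite (PT.eqNat (PT.div ht h1.nR) (PT.const (CNum.mIx N none : ℕ)))
      (PTt.dg hc (PT.mod ht h1.nR) (htb.mono fun q => Nat.mod_le _ _)) (PTt.dg he ht htb)

theorem PT_mvSN (h : CNum.OkPT A n) {gN : α → ℕ → ℕ}
    (hg : PT A (fun p : α × ℕ => gN p.1 (min p.2 (n p.1).nY))) {s : α → ℕ} (hs : PT A s) :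
    PT A (fun a => mvSN (n a) (gN a) (s a)) := by
  have hgy : PT A (fun a => gN a ((n a).yN (s a))) :=
    (PT.comp (g := fun p : α × ℕ => gN p.1 (min p.2 (n p.1).nY)) hg
      (PT.id.pair (h.yN hs))).congr fun a => by
        rw [min_eq_left]
        exact min_le_right _ _
  exact PT.add (PT.mul (PT.add (PT.mul (PT.min hgy h.nY) h.Qc) (h.cN hs)) h.NZ) (PT.mod hs h.NZ)

theorem PT_mvTN (h : CNum.OkPT A n) {gN : α → ℕ → ℕ} {AN : α → ℕ → ℕ → ℕ → N.F}
    (hg : PT A (fun p : α × ℕ => gN p.1 (min p.2 (n p.1).nY)))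
    (hA : PTt A (fun p : α × ℕ × ℕ × ℕ =>
      AN p.1 (min p.2.1 (n p.1).nY) (min p.2.2.1 (n p.1).Qc) (min p.2.2.2 (n p.1).nR)))
    {s : α → ℕ} (hs : PT A s) :
    PT A (fun a => mvTN (n a) (gN a) (AN a) (s a)) := by
  have hgy : PT A (fun a => gN a ((n a).yN (s a))) :=
    (PT.comp (g := fun p : α × ℕ => gN p.1 (min p.2 (n p.1).nY)) hg
      (PT.id.pair (h.yN hs))).congr fun a => by
        rw [min_eq_left]
        exact min_le_right _ _
  have hs' : PT A (fun q : α × ℕ => s q.1) := hs.comp PT.fst'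
  have h1 : CNum.OkPT A (I := fun q : α × ℕ => I q.1) (fun q : α × ℕ => n q.1) :=
    h.comp' PT.fst'
  have hy := h1.yN hs'
  have hc := h1.cN hs'
  refine PT.add (PT.mul (PT.add (PT.mul (PT.min hgy h.nY) h.Qc) (PT.fnum h.nR h.nRb ?_)) h.NZ)
    (PT.mod hs h.NZ)
  refine (PTt.comp (f := fun p : α × ℕ × ℕ × ℕ => AN p.1 (min p.2.1 (n p.1).nY)
    (min p.2.2.1 (n p.1).Qc) (min p.2.2.2 (n p.1).nR)) hA
    (PT.fst'.pair (hy.pair (hc.pair PT.snd')))).congr fun q => ?_
  rw [min_eq_left (a := (n q.1).yN (s q.1)) (min_le_right _ _),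
    min_eq_left (a := (n q.1).cN (s q.1)) (min_le_right _ _)]

end pt

end Vale.Agent.P330.H972
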