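import Vale.Agent.P330.H972.XNum
import Vale.Agent.P330.H972.XSites
import Vale.Agent.P330.H972.XFacts

/-!
# FUNC: the numbers of the sites of a family of machines with external bits

`XFam C S α`: a family of instances of a machine `S`.  `XFam.xd : XD ..`.  The points, pads and reads
of the local codes `famX` of all external bits are those of `xd.skel`.
-/

namespace Vale.Agent.P330.H972

open Finset Vale.Agent.Lib.PolyTime Vale.Agent.P330.Q Vale.Agent.P330.FM

/-- A family of instances of a machine with external bits. -/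
structure XFam {nC B m : ℕ} (C : XC nC B m) (S : XSpec) (α : Type) [Enc α] where
  σ : XSlot S ≃ Fin B
  /-- number of address bits -/
  k : α → ℕ
  PT_k : PT ∅ k
  PB_k : PBd fun a => 2 ^ k a
  I : α → XInst S
  ε : ∀ a, (I a).J ≃ Addr (k a)
  /-- some external bits for which the machine works -/
  s0 : ∀ a, S.Ext → (I a).J → Bool
  hI0 : ∀ a, (I a).Facts (s0 a)

namespace XFam

variable {nC B m : ℕ} {C : XC nC B m} {S : XSpec} {α : Type} [Enc α] (U : XFam C S α)

/-- **The family of domains.** -/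
noncomputable def xd : XD α C.K S.Cell (XVOut S) B where
  h a := C.h (U.k a)
  hne _ := inferInstance
  k := U.k
  X a := (U.I a).J → S.Cell
  M a := domX C (U.I a) U.σ (U.ε a) (U.s0 a) (U.hI0 a)
  std a := stdX C (U.I a) U.σ (U.ε a) (U.s0 a) (U.hI0 a)
  al a := C.ap (U.k a)
  be a := C.be (U.k a)
  alN a := C.apN (U.k a)
  beN a := C.beN (U.k a)
  al_ok a := C.isNat_ap (U.k a)
  be_ok a := C.isNat_be (U.k a)
  t := C.P0.t
  dne a := (C.spr (U.k a)).1
  PT_h := C.PT_h U.PT_k U.PB_k
  PB_h := C.PBd_h U.PB_k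
  PT_k := U.PT_k
  PT_al := C.PTz_apN U.PT_k U.PB_k
  PT_be := C.PTz_beN U.PT_k U.PB_k

/-- The instance without public bits. -/
noncomputable abbrev sk (a : α) : CInst (codeX C S) :=
  U.xd.skel C.φ C.φ_ne C.P.Dc (C.P.Dc_1' C.card_K) (C.P.Dc_2' C.card_K) a

/-- **The numbers.** -/
noncomputable def nm (a : α) : CNum (U.sk a) :=
  U.xd.num C.φ C.φ_ne C.P.Dc (C.P.Dc_1' C.card_K) (C.P.Dc_2' C.card_K) C.r a

theorem nm_ok (a : α) : (U.nm a).Ok := XD.num_ok C.r_sq a

theorem nm_pt : CNum.OkPT ∅ U.nm := U.xd.num_pt C.r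

variable (a : α) (s : S.Ext → (U.I a).J → Bool) (hI : (U.I a).Facts s)

/-- The local code for the external bits `s`. -/
noncomputable abbrev fam : CInst (codeX C S) := famX C (U.I a) U.σ (U.ε a) s hI

theorem fam_P : (U.fam a s hI).P = (U.sk a).P := rfl

theorem fam_Z : (U.fam a s hI).Z = (U.sk a).Z := rfl

theorem fam_rd (R : (codeX C S).Raw) : (U.fam a s hI).rd R = (U.sk a).rd R := by
  rcases R with ⟨(_ | κ) | (_ | κ), p⟩ | u <;> rfl

end XFam

end Vale.Agent.P330.H972
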