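import Vale.Agent.P330.H972.XNumC

/-!
# FUNC: the number of the sites is polynomial in the length of the blocks

`Bd g f`: `f` is bounded by a polynomial in `g`.  `XFam.size`: the number of the sites is
polynomial in `2 ^ k`.
-/

namespace Vale.Agent.P330.H972

open Finset Vale.Agent.Lib.PolyTime Vale.Agent.P330.Q Vale.Agent.P330.FM

/-- `f` is bounded by a polynomial in `g`. -/
def Bd {α : Type} (g f : α → ℕ) : Prop := ∃ c, ∀ a, f a ≤ (g a + 2) ^ c

section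

variable {α : Type} {g f f' : α → ℕ}

theorem Bd.mono (h : Bd g f) (h' : ∀ a, f' a ≤ f a) : Bd g f' := by
  obtain ⟨c, hc⟩ := h
  exact ⟨c, fun a => (h' a).trans (hc a)⟩

theorem Bd.const (g : α → ℕ) (n : ℕ) : Bd g fun _ => n :=
  ⟨n, fun a => Nat.lt_two_pow_self.le.trans (Nat.pow_le_pow_left (by omega) n)⟩

theorem Bd.mul (h : Bd g f) (h' : Bd g f') : Bd g fun a => f a * f' a := by
  obtain ⟨c, hc⟩ := h
  obtain ⟨c', hc'⟩ := h'
  refine ⟨c + c', fun a => ?_⟩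
  rw [pow_add]
  exact Nat.mul_le_mul (hc a) (hc' a)

theorem Bd.pow (h : Bd g f) (n : ℕ) : Bd g fun a => f a ^ n := by
  obtain ⟨c, hc⟩ := h
  refine ⟨c * n, fun a => ?_⟩
  rw [pow_mul]
  exact Nat.pow_le_pow_left (hc a) n

/-- `2 ^ (c₁ + c₂ * f)` is polynomially bounded if `2 ^ f` is. -/
theorem Bd.two_pow_lin (h : Bd g fun a => 2 ^ f a) (c₁ c₂ : ℕ) :
    Bd g fun a => 2 ^ (c₁ + c₂ * f a) :=
  ((Bd.const g (2 ^ c₁)).mul (h.pow c₂)).mono fun a => by
    rw [pow_add, ← pow_mul, mul_comm c₂]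

/-- Constants to the power `c₁ + c₂ * f`. -/
theorem Bd.const_pow_lin (h : Bd g fun a => 2 ^ f a) (q c₁ c₂ : ℕ) :
    Bd g fun a => q ^ (c₁ + c₂ * f a) :=
  ((h.two_pow_lin c₁ c₂).pow q).mono fun a => by
    calc q ^ (c₁ + c₂ * f a) ≤ (2 ^ q) ^ (c₁ + c₂ * f a) :=
          Nat.pow_le_pow_left Nat.lt_two_pow_self.le _
      _ = (2 ^ (c₁ + c₂ * f a)) ^ q := by rw [← pow_mul, ← pow_mul, mul_comm]

theorem Bd.trans {g' : α → ℕ} (h : Bd g f) (h' : Bd g' g) : Bd g' f := by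
  obtain ⟨c, hc⟩ := h
  obtain ⟨c', hc'⟩ := h'
  refine ⟨(c' + 2) * c, fun a => (hc a).trans ?_⟩
  rw [pow_mul]
  refine Nat.pow_le_pow_left ?_ c
  have h1 := hc' a
  have h2 : 1 ≤ (g' a + 2) ^ c' := Nat.one_le_pow _ _ (by omega)
  have h3 : (g' a + 2) ^ (c' + 2) = (g' a + 2) ^ c' * (g' a + 2) ^ 2 := pow_add _ _ _
  have h4 : 2 ^ 2 ≤ (g' a + 2) ^ 2 := Nat.pow_le_pow_left (by omega) 2
  have h5 : (g' a + 2) ^ c' * 4 ≤ (g' a + 2) ^ c' * (g' a + 2) ^ 2 := Nat.mul_le_mul_left _ h4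
  omega

end

namespace XD

variable {α : Type} [Enc α] {K : Type} [Field K] [CharP K 2] [Fintype K] [DecidableEq K]
  [DecidableEq (CK K)]
  {Cell V : Type} [Fintype Cell] [DecidableEq Cell] [Fintype V] [DecidableEq V] {B : ℕ}
  {φ : K →+ ZMod 2} {hφ : φ ≠ 0} {D : ℕ} {hD : Fintype.card K ≤ 2 * D + 1}
  {hD2 : D + 2 ≤ Fintype.card K} (S : XD α K Cell V B)

/-- **The number of the sites** is polynomial in `g` if `2 ^ h` is. -/
theorem size {g : α → ℕ} (hh : Bd g fun a => 2 ^ S.h a) (r : ℕ) :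
    Bd g fun a => (S.num φ hφ D hD hD2 r a).NP * (S.num φ hφ D hD hD2 r a).NZ := by
  have h1 : Bd g fun a => cY K (S.h a) := (hh.const_pow_lin (Fintype.card (TY K)) 0 1).mono
    fun a => by
      rw [zero_add, one_mul]
      exact le_refl _
  have h2 : Bd g fun a => S.nDi a := by
    refine (((Bd.const g (Fintype.card K * 2)).mul hh).pow S.t).mono fun a => ?_
    refine (nD_le (S.h a) (S.alN a) (S.beN a) S.t).trans ?_
    refine Nat.pow_le_pow_left ?_ _
    rw [← mul_assoc]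
    exact Nat.mul_le_mul_left _ Nat.lt_two_pow_self.le
  have h3 : ∀ m : ℕ, Bd g fun a => Fintype.card K ^ (m * nC Cell V (S.h a)) := by
    intro m
    refine (hh.const_pow_lin (Fintype.card K) (m * (Fintype.card (CLo Cell) +
      Fintype.card (CHi Cell V))) (m * Fintype.card (CHi Cell V))).mono fun a => le_of_eq ?_
    congr 1
    unfold nC
    ring
  have h4 : Bd g fun a => (S.num φ hφ D hD hD2 r a).Qc := (h3 1).mono fun a => by
    rw [one_mul]
    exact le_refl _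
  have h5 : Bd g fun a => (S.num φ hφ D hD hD2 r a).Qe :=
    h3 (CNum.M (codeG Cell V B φ hφ D hD hD2))
  exact ((h1.mul h1).mul h4).mul (h5.mul ((h2.mul h2).mul (h2.mul h2)))

end XD

namespace XFam

variable {nC B m : ℕ} {C : XC nC B m} {S : XSpec} {α : Type} [Enc α] (U : XFam C S α)

theorem bd_h {g : α → ℕ} (hk : Bd g fun a => 2 ^ U.k a) : Bd g fun a => 2 ^ C.h (U.k a) := by
  refine (hk.two_pow_lin (2 ^ C.P0.N0 + 1) (4 * B)).mono fun a => ?_
  refine Nat.pow_le_pow_right (by norm_num) ?_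
  have h1 := hLen_le B C.P0.N0 (U.k a)
  have h2 : C.h (U.k a) = hLen B C.P0.N0 (U.k a) := rfl
  rw [h2]
  refine h1.trans (le_of_eq ?_)
  ring

/-- **The number of the sites.** -/
theorem size {g : α → ℕ} (hk : Bd g fun a => 2 ^ U.k a) :
    Bd g fun a => (U.nm a).NP * (U.nm a).NZ :=
  XD.size U.xd (U.bd_h hk) C.r

end XFam

end Vale.Agent.P330.H972
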